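import Vale.Agent.P262.Rec

/-! P262: choice of the parameters. -/

namespace P262

open Finset

/-- the parameters -/
noncomputable def par (d : ℕ) (hd : 1 ≤ d) : Par d where
  K := 5 + 3 * Nat.clog 2 (d + 1)
  J' := 134 + 28 * Nat.clog 2 (d + 1)
  c := 320 * Real.log (d + 1)
  Lam := 10 ^ 12 * ((d : ℝ) + 1) ^ 8
  hc := by
    have h1 : Real.log 2 ≤ Real.log (d + 1) := by
      apply Real.log_le_log (by norm_num)
      have : (1:ℝ) ≤ d := by exact_mod_cast hd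
      linarith
    have h2 := Real.log_two_gt_d9
    linarith

section
variable (d : ℕ) (hd : 1 ≤ d)
include hd

lemma log_ge : 0.693 ≤ Real.log ((d : ℝ) + 1) := by
  have h1 : Real.log 2 ≤ Real.log (d + 1) := by
    apply Real.log_le_log (by norm_num)
    have : (1:ℝ) ≤ d := by exact_mod_cast hd
    linarith
  have h2 := Real.log_two_gt_d9
  linarith

lemma log_le : Real.log ((d : ℝ) + 1) ≤ (d : ℝ) + 1 := by
  have h := Real.log_le_sub_one_of_pos (show (0:ℝ) < (d:ℝ) + 1 by positivity)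
  linarith

lemma clog_ge : ((d : ℝ) + 1) ≤ 2 ^ (Nat.clog 2 (d + 1)) := by
  have := Nat.le_pow_clog (b := 2) (by norm_num) (d + 1)
  exact_mod_cast this

lemma clog_lt : (2:ℝ) ^ (Nat.clog 2 (d + 1)) < 2 * ((d : ℝ) + 1) := by
  have h1 := Nat.pow_pred_clog_lt_self (b := 2) (by norm_num) (x := d + 1) (by omega)
  have h2 : 0 < Nat.clog 2 (d + 1) := Nat.clog_pos (by norm_num) (by omega)
  have h3 : 2 ^ (Nat.clog 2 (d + 1)) = 2 * 2 ^ (Nat.clog 2 (d + 1)).pred := by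
    rw [← pow_succ']
    congr 1
    exact (Nat.succ_pred_eq_of_pos h2).symm
  have h4 : 2 ^ (Nat.clog 2 (d + 1)) < 2 * (d + 1) := by omega
  exact_mod_cast h4

lemma clog_le_lin : (Nat.clog 2 (d + 1) : ℝ) ≤ 2 * ((d : ℝ) + 1) := by
  have h1 := clog_lt d hd
  have h2 : (Nat.clog 2 (d + 1) : ℝ) < 2 ^ (Nat.clog 2 (d + 1)) := by
    exact_mod_cast Nat.lt_two_pow_self
  linarith

lemma clog_le_log : (Nat.clog 2 (d + 1) : ℝ) ≤ 3 * Real.log ((d : ℝ) + 1) := by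
  have h1 := clog_lt d hd
  have hn : (0:ℝ) < (d:ℝ) + 1 := by positivity
  have h2 : Real.log ((2:ℝ) ^ (Nat.clog 2 (d + 1))) ≤ Real.log (2 * ((d : ℝ) + 1)) :=
    Real.log_le_log (by positivity) h1.le
  rw [Real.log_pow, Real.log_mul (by norm_num) hn.ne'] at h2
  have h3 := Real.log_two_gt_d9
  have h4 : Real.log 2 ≤ Real.log ((d : ℝ) + 1) := by
    apply Real.log_le_log (by norm_num)
    have : (1:ℝ) ≤ d := by exact_mod_cast hd
    linarith
  have h5 : (0:ℝ) ≤ Nat.clog 2 (d + 1) := Nat.cast_nonneg _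
  have h6 : (0.6931:ℝ) * Nat.clog 2 (d + 1) ≤ Real.log 2 * Nat.clog 2 (d + 1) :=
    mul_le_mul_of_nonneg_right (by linarith) h5
  have h7 : (Nat.clog 2 (d + 1) : ℝ) * Real.log 2 = Real.log 2 * Nat.clog 2 (d + 1) := mul_comm _ _
  linarith

lemma par_m : ((par d hd).m : ℝ) ≤ ((d : ℝ) + 1) ^ 2 := by
  unfold Par.m
  push_cast
  have : (0:ℝ) ≤ d := Nat.cast_nonneg _
  nlinarith

lemma par_h : ((par d hd).h : ℝ) ≤ 20 * ((d : ℝ) + 1) ^ 3 := by
  unfold Par.h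
  have h1 := par_m d hd
  push_cast
  have h2 : (0:ℝ) ≤ (d:ℝ) + 1 := by positivity
  have h3 : ((par d hd).m : ℝ) * ((d:ℝ) + 1) ≤ ((d : ℝ) + 1) ^ 2 * ((d:ℝ) + 1) :=
    mul_le_mul_of_nonneg_right h1 h2
  nlinarith

lemma par_b0 : (par d hd).b0 = 1280 * Real.log ((d : ℝ) + 1) + 2 := by
  unfold Par.b0 Par.b1
  show 2 * (2 * (320 * Real.log ((d : ℝ) + 1))) + 2 = _
  ring

lemma par_b0_le : (par d hd).b0 ≤ 1281 * ((d : ℝ) + 1) := by
  rw [par_b0]
  have h1 := log_le d hd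
  have h2 : (1:ℝ) ≤ d := by exact_mod_cast hd
  linarith

lemma par_K : ((par d hd).K : ℝ) ≤ 9 * ((d : ℝ) + 1) := by
  show (((5 + 3 * Nat.clog 2 (d + 1) : ℕ)) : ℝ) ≤ _
  have h1 := clog_le_lin d hd
  have h2 : (1:ℝ) ≤ d := by exact_mod_cast hd
  push_cast
  linarith

lemma par_nF : (par d hd).nF ≤ 6000 * ((d : ℝ) + 1) ^ 3 := by
  unfold Par.nF
  have h1 := par_m d hd
  have h2 := par_h d hd
  have h3 := par_K d hd
  have h4 : (par d hd).b1 ≤ 640 * ((d : ℝ) + 1) := by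
    unfold Par.b1
    show 2 * (320 * Real.log ((d : ℝ) + 1)) ≤ _
    have := log_le d hd
    linarith
  have hn : (2:ℝ) ≤ (d:ℝ) + 1 := by
    have : (1:ℝ) ≤ d := by exact_mod_cast hd
    linarith
  set n := (d:ℝ) + 1 with hnd
  have hK0 : (0:ℝ) ≤ (par d hd).K := Nat.cast_nonneg _
  have h5 : 2 * (par d hd).b1 * (par d hd).K ≤ 2 * (640 * n) * (9 * n) := by
    apply mul_le_mul _ h3 hK0 (by positivity)
    linarith
  have h6 : n ^ 2 ≤ n ^ 3 / 2 := by
    have : n ^ 3 = n ^ 2 * n := by ring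
    rw [this]; nlinarith [sq_nonneg n]
  have h7 : 2 * (640 * n) * (9 * n) = 11520 * n ^ 2 := by ring
  linarith

lemma par_good : (par d hd).Good := by
  have hn : (2:ℝ) ≤ (d:ℝ) + 1 := by
    have : (1:ℝ) ≤ d := by exact_mod_cast hd
    linarith
  have hd0 : (0:ℝ) ≤ d := Nat.cast_nonneg _
  have hb := par_b0_le d hd
  have hb6 := (par d hd).b0_ge
  have hm := par_m d hd
  have hh := par_h d hd
  have hnF := par_nF d hd
  have hK := par_K d hd
  have hclg := clog_ge d hd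
  have hnF0 : 0 ≤ (par d hd).nF := by
    unfold Par.nF
    have := (par d hd).b1_ge
    positivity
  have hLam : (par d hd).Lam = 10 ^ 12 * ((d : ℝ) + 1) ^ 8 := rfl
  have hc : (par d hd).c = 320 * Real.log ((d : ℝ) + 1) := rfl
  have hKe : (par d hd).K = 5 + 3 * Nat.clog 2 (d + 1) := rfl
  have hJe : (par d hd).J' = 134 + 28 * Nat.clog 2 (d + 1) := rfl
  set n := (d:ℝ) + 1 with hnd
  have hdn : (d:ℝ) ≤ n := by linarith
  have p1 : ∀ k : ℕ, (1:ℝ) ≤ n ^ k := fun k => one_le_pow₀ (by linarith)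
  have pmono : ∀ {a b : ℕ}, a ≤ b → n ^ a ≤ n ^ b := fun h =>
    pow_le_pow_right₀ (by linarith) h
  have hC1 : (par d hd).C1 ≤ 64 * n ^ 3 := by
    unfold Par.C1 Par.CQ
    have := pmono (show 2 ≤ 3 by norm_num)
    linarith
  have hC10 : 0 ≤ (par d hd).C1 := by
    unfold Par.C1 Par.CQ; positivity
  have e1 : n = n ^ 1 := (pow_one n).symm
  have q13 : n ≤ n ^ 3 / 4 := by
    have : n ^ 3 = n * (n * n) := by ring
    rw [this]; nlinarith
  have q03 : (1:ℝ) ≤ n ^ 3 / 8 := by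
    have : (2:ℝ) ^ 3 ≤ n ^ 3 := pow_le_pow_left₀ (by norm_num) hn 3
    linarith
  have hb0 : 0 ≤ (par d hd).b0 := by linarith
  have hb2 : (par d hd).b0 ^ 2 ≤ (1281 * n) ^ 2 := pow_le_pow_left₀ hb0 hb 2
  refine ⟨?_, ?_, ?_, ?_, ?_, ?_, ?_, ?_⟩
  · -- hK
    have h1 : ((par d hd).h : ℝ) ≤ 2 ^ (par d hd).K := by
      rw [hKe, pow_add, mul_comm 3, pow_mul]
      have h2 : n ^ 3 ≤ ((2:ℝ) ^ (Nat.clog 2 (d + 1))) ^ 3 := pow_le_pow_left₀ (by linarith) hclg 3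
      have h3 := p1 3
      norm_num
      linarith
    exact_mod_cast h1
  · -- hsm
    have hexp : Real.exp (-(par d hd).c / 8) = (n ^ 40)⁻¹ := by
      have e2 : -(par d hd).c / 8 = -((40 : ℕ) * Real.log n) := by rw [hc]; push_cast; ring
      rw [e2, Real.exp_neg, Real.exp_nat_mul, Real.exp_log (by linarith)]
    rw [hexp, ← div_eq_mul_inv, div_lt_one (by positivity)]
    have h1 : 2 * ((par d hd).nF + ((d : ℝ) + ((par d hd).K + 1))) ≤ 12010 * n ^ 3 := by linarith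
    have h2 : n ^ 40 = n ^ 3 * n ^ 37 := by ring
    have h3 : (2:ℝ) ^ 37 ≤ n ^ 37 := pow_le_pow_left₀ (by norm_num) hn 37
    have h4 : n ^ 3 * (2:ℝ) ^ 37 ≤ n ^ 3 * n ^ 37 :=
      mul_le_mul_of_nonneg_left h3 (by positivity)
    have h5 := p1 3
    rw [h2]
    norm_num at h4
    linarith
  · rw [hLam]; positivity
  · -- hL1
    rw [hLam]
    have h1 : (par d hd).b0 * n ≤ 1281 * n * n := mul_le_mul_of_nonneg_right hb (by linarith)
    have h2 := pmono (show 2 ≤ 8 by norm_num)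
    have h3 : 64 * (par d hd).b0 * (↑d + 1) = 64 * ((par d hd).b0 * n) := by rw [hnd]; ring
    rw [h3]
    have h4 := p1 8
    have h5 : 1281 * n * n = 1281 * n ^ 2 := by ring
    linarith
  · -- hL2
    rw [hLam]
    have h2 := pmono (show 3 ≤ 8 by norm_num)
    have h4 := p1 8
    linarith
  · -- hL3
    rw [hLam]
    have h1 : 16 * (par d hd).b0 + (par d hd).C1 ≤ 5188 * n ^ 3 := by linarith
    have h2 : (16 * (par d hd).b0 + (par d hd).C1) * d ≤ 5188 * n ^ 3 * n :=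
      mul_le_mul h1 hdn hd0 (by positivity)
    have h3 : 1 + 2 * (par d hd).b0 ^ 2 * d ≤ 3300000 * n ^ 3 := by
      have h4 : (par d hd).b0 ^ 2 * d ≤ (1281 * n) ^ 2 * n :=
        mul_le_mul hb2 hdn hd0 (by positivity)
      have h5 : (1281 * n) ^ 2 * n = 1640961 * n ^ 3 := by ring
      have h6 : 2 * (par d hd).b0 ^ 2 * d = 2 * ((par d hd).b0 ^ 2 * d) := by ring
      rw [h6]
      linarith
    have h4 : (16 * (par d hd).b0 + (par d hd).C1) * d * (1 + 2 * (par d hd).b0 ^ 2 * d) ≤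
        5188 * n ^ 3 * n * (3300000 * n ^ 3) := by
      apply mul_le_mul h2 h3 _ (by positivity)
      positivity
    refine h4.trans ?_
    have h5 : 5188 * n ^ 3 * n * (3300000 * n ^ 3) = 17120400000 * n ^ 7 := by ring
    rw [h5]
    have h6 := pmono (show 7 ≤ 8 by norm_num)
    have h7 := p1 7
    linarith
  · -- hL4
    rw [hLam]
    have h1 : (par d hd).b0 ^ 2 * (d : ℝ) ^ 2 ≤ (1281 * n) ^ 2 * n ^ 2 :=
      mul_le_mul hb2 (pow_le_pow_left₀ hd0 hdn 2) (by positivity) (by positivity)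
    have h2 : (1281 * n) ^ 2 * n ^ 2 = 1640961 * n ^ 4 := by ring
    have h3 := pmono (show 4 ≤ 8 by norm_num)
    have h4 := p1 4
    have h5 : 2 * (par d hd).b0 ^ 2 * (d : ℝ) ^ 2 = 2 * ((par d hd).b0 ^ 2 * (d : ℝ) ^ 2) := by ring
    rw [h5]
    linarith
  · -- hJ
    have h1 : (par d hd).b0 + (par d hd).nF + 1 ≤ 6321 * n ^ 3 := by linarith
    have h2 : ((par d hd).b0 + (par d hd).nF + 1) ^ 2 ≤ (6321 * n ^ 3) ^ 2 :=
      pow_le_pow_left₀ (by linarith) h1 2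
    have h3 : (3 / 5 : ℝ) ^ (par d hd).J' ≤ (2 ^ 67 * n ^ 14)⁻¹ := by
      have e2 : 134 + 28 * Nat.clog 2 (d + 1) = 2 * (67 + Nat.clog 2 (d + 1) * 14) := by ring
      rw [hJe, e2, pow_mul]
      calc ((3 / 5 : ℝ) ^ 2) ^ (67 + Nat.clog 2 (d + 1) * 14)
          ≤ (1 / 2 : ℝ) ^ (67 + Nat.clog 2 (d + 1) * 14) :=
            pow_le_pow_left₀ (by norm_num) (by norm_num) _
        _ = (2 ^ 67 * ((2:ℝ) ^ (Nat.clog 2 (d + 1))) ^ 14)⁻¹ := by
            rw [one_div, inv_pow, pow_add, pow_mul]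
        _ ≤ (2 ^ 67 * n ^ 14)⁻¹ := by
            apply inv_anti₀ (by positivity)
            apply mul_le_mul_of_nonneg_left _ (by positivity)
            exact pow_le_pow_left₀ (by linarith) hclg 14
    have hLpos : 0 ≤ 2 * (par d hd).Lam := by rw [hLam]; positivity
    have h4 : ((par d hd).b0 + (par d hd).nF + 1) ^ 2 * (2 * (par d hd).Lam) *
        (3 / 5 : ℝ) ^ (par d hd).J' ≤
        (6321 * n ^ 3) ^ 2 * (2 * (par d hd).Lam) * (2 ^ 67 * n ^ 14)⁻¹ := by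
      apply mul_le_mul _ h3 (by positivity) (by positivity)
      exact mul_le_mul_of_nonneg_right h2 hLpos
    refine h4.trans ?_
    rw [← div_eq_mul_inv, div_le_one (by positivity), hLam]
    have e3 : (6321 * n ^ 3) ^ 2 * (2 * (10 ^ 12 * n ^ 8)) =
        (6321 ^ 2 * 2 * 10 ^ 12) * n ^ 14 := by ring
    rw [e3]
    apply mul_le_mul_of_nonneg_right _ (by positivity)
    norm_num

lemma par_btot : (par d hd).btot ≤ 400000 * (Real.log ((d : ℝ) + 1)) ^ 2 := by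
  unfold Par.btot
  rw [par_b0]
  have hJ : ((par d hd).J : ℝ) = 140 + 31 * (Nat.clog 2 (d + 1) : ℝ) := by
    unfold Par.J
    show (((5 + 3 * Nat.clog 2 (d + 1)) + 1 + (134 + 28 * Nat.clog 2 (d + 1)) : ℕ) : ℝ) = _
    push_cast
    ring
  rw [hJ]
  have h1 := clog_le_log d hd
  have h2 := log_ge d hd
  set ℓ := Real.log ((d : ℝ) + 1) with hℓ
  set κ : ℝ := (Nat.clog 2 (d + 1) : ℝ) with hκ
  have hκ0 : 0 ≤ κ := Nat.cast_nonneg _
  have h3 : 1280 * ℓ + 2 ≤ 1283 * ℓ := by linarith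
  have h4 : 1 + (140 + 31 * κ) ≤ 305 * ℓ := by linarith
  have h5 : (1280 * ℓ + 2) * (1 + (140 + 31 * κ)) ≤ 1283 * ℓ * (305 * ℓ) :=
    mul_le_mul h3 h4 (by positivity) (by linarith)
  have h6 : (5:ℝ) ≤ 11 * ℓ ^ 2 := by nlinarith
  nlinarith

end

/-- **Core.** -/
theorem core : ∃ B : ℝ, 0 < B ∧ ∀ (d : ℕ) (ι : Type) [Fintype ι] [DecidableEq ι]
    (v : ι → Fin d → ℝ), (∀ i, ∑ k, (v i k) ^ 2 ≤ 1) →
    (∀ k l, k ≠ l → ∑ i, v i k * v i l = 0) → (∀ k, ∑ i, v i k = 0) →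
    ∃ L : List ι, L.Nodup ∧ (∀ i, i ∈ L) ∧
      ∀ (n : ℕ) (k : Fin d), |((L.take n).map (fun i => v i k)).sum| ≤
        B * (Real.log (d + 1)) ^ 2 := by
  refine ⟨400000, by norm_num, ?_⟩
  intro d ι _ _ v hv horth hsum
  rcases Nat.eq_zero_or_pos d with hd | hd
  · subst hd
    exact ⟨Finset.univ.toList, Finset.nodup_toList _, fun i => by simp, fun n k => k.elim0⟩
  · obtain ⟨L, h1, h2, h3⟩ := core_par (par d hd) (par_good d hd) v hv horth hsum
    exact ⟨L, h1, h2, fun n k => (h3 n k).trans (par_btot d hd)⟩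

end P262
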