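import Mathlib

/-! P262: parameters and invariants of the recursion. -/

namespace P262

open Finset

/-- Parameters of the recursion in dimension `d`. -/
structure Par (d : ℕ) where
  K : ℕ
  J' : ℕ
  c : ℝ
  Lam : ℝ
  hc : 1 ≤ c

namespace Par
variable {d : ℕ} (P : Par d)

/-- number of linear functionals kept by the vertex lemma -/
def m (_ : Par d) : ℕ := d ^ 2 + d + 1
/-- bound for the number of new heavy vectors -/
def h : ℕ := 20 * P.m * (d + 1)
/-- rounding error -/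
def b1 : ℝ := 2 * P.c
/-- error bound of a long coordinate, and increment of a short coordinate -/
def b0 : ℝ := 2 * P.b1 + 2
def CQ : ℝ := 2 * (P.h : ℝ) + 4 * (P.m : ℝ)
def C1 : ℝ := P.CQ + P.h
def nF : ℝ := (P.m : ℝ) + 2 * (P.h : ℝ) + 2 * P.b1 * P.K
def J : ℕ := P.K + 1 + P.J'

/-- error bound of a coordinate `j` levels after it became short -/
noncomputable def bet : ℕ → ℝ
  | 0 => P.b0
  | (j + 1) => bet j + (if j < P.J then P.b0 else (4 / 5 : ℝ) ^ (j - P.J))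

/-- total error bound -/
def btot : ℝ := P.b0 + P.b0 * P.J + 5

/-- the requirements on the parameters -/
structure Good : Prop where
  hK : P.h ≤ 2 ^ P.K
  hsm : 2 * (P.nF + ((d : ℝ) + (P.K + 1))) * Real.exp (-P.c / 8) < 1
  hL0 : 0 < P.Lam
  hL1 : 64 * P.b0 * (d + 1) ≤ P.Lam
  hL2 : 4 * P.C1 ≤ P.Lam
  hL3 : (16 * P.b0 + P.C1) * d * (1 + 2 * P.b0 ^ 2 * d) ≤ P.Lam
  hL4 : 2 * P.b0 ^ 2 * d ^ 2 ≤ P.Lam
  hJ : (P.b0 + P.nF + 1) ^ 2 * (2 * P.Lam) * (3 / 5 : ℝ) ^ P.J' ≤ 1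

lemma b1_ge : 2 ≤ P.b1 := by unfold b1; linarith [P.hc]
lemma b0_ge : 6 ≤ P.b0 := by unfold b0; linarith [P.b1_ge]

lemma bet_le (j : ℕ) :
    P.bet j ≤ P.b0 + P.b0 * (min j P.J : ℕ) + 5 * (1 - (4 / 5 : ℝ) ^ (j - P.J)) := by
  induction j with
  | zero => simp [bet]
  | succ j ih =>
    rw [bet]
    by_cases hj : j < P.J
    · rw [if_pos hj]
      have e1 : min j P.J = j := by omega
      have e2 : min (j + 1) P.J = j + 1 := by omega
      have e3 : j - P.J = 0 := by omega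
      have e4 : j + 1 - P.J = 0 := by omega
      rw [e1, e3] at ih
      rw [e2, e4]
      push_cast
      simp only [pow_zero] at ih ⊢
      linarith
    · rw [if_neg hj]
      have e1 : min j P.J = P.J := by omega
      have e2 : min (j + 1) P.J = P.J := by omega
      have e4 : j + 1 - P.J = (j - P.J) + 1 := by omega
      rw [e1] at ih
      rw [e2, e4, pow_succ]
      linarith

lemma bet_le_btot (j : ℕ) : P.bet j ≤ P.btot := by
  have h1 := P.bet_le j
  have h2 : ((min j P.J : ℕ) : ℝ) ≤ P.J := by exact_mod_cast min_le_right _ _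
  have h3 : (0:ℝ) ≤ (4 / 5 : ℝ) ^ (j - P.J) := by positivity
  have h4 := mul_le_mul_of_nonneg_left h2 (by linarith [P.b0_ge] : 0 ≤ P.b0)
  unfold btot
  linarith

lemma bet_mono_succ (j : ℕ) : P.bet j ≤ P.bet (j + 1) := by
  rw [bet]
  split_ifs
  · linarith [P.b0_ge]
  · have : (0:ℝ) ≤ (4 / 5 : ℝ) ^ (j - P.J) := by positivity
    linarith

lemma bet_mono {i j : ℕ} (hij : i ≤ j) : P.bet i ≤ P.bet j := by
  induction hij with
  | refl => exact le_refl _
  | step _ ih => exact ih.trans (P.bet_mono_succ _)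

lemma b0_le_bet (j : ℕ) : P.b0 ≤ P.bet j := by
  have := P.bet_mono (Nat.zero_le j)
  rwa [bet] at this

end Par

variable {d : ℕ} {ι : Type} [DecidableEq ι]

/-- accumulated relative tilt up to level `l` -/
noncomputable def dl (P : Par d) (lam : Fin d → ℝ) (l : ℕ) : ℝ :=
  8 * P.b0 * ∑ k, min ((2 : ℝ) ^ l / lam k) (2 / P.Lam)

/-- weight used for termination -/
def wt (P : Par d) (a : ℕ) : ℕ := if a = 0 then P.K + 3 else P.K + 2 - a

/-- Invariants of an interval `S` of level `l` with ages `age`. -/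
structure InvS (P : Par d) (v : ι → Fin d → ℝ) (lam : Fin d → ℝ) (lv : Fin d → ℕ)
    (l : ℕ) (S : Finset ι) (age : ι → ℕ) : Prop where
  age_le : ∀ i ∈ S, age i ≤ P.K + 1
  cls : ∀ j, 1 ≤ j → j ≤ P.K + 1 →
    ((S.filter (fun i => age i = j)).card : ℝ) ≤ (P.h : ℝ) / 2 ^ j + 2 * P.b1
  close : ∀ u : Fin d → ℝ,
    |∑ i ∈ S.filter (fun i => age i = 0), (∑ k, v i k * u k) ^ 2
        - ∑ k, lam k / 2 ^ l * (u k) ^ 2| ≤
      dl P lam l * ∑ k, lam k / 2 ^ l * (u k) ^ 2 + P.CQ * ∑ k, (u k) ^ 2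
  short : ∀ k, lv k ≤ l →
    ∑ i ∈ S.filter (fun i => age i = 0), (v i k) ^ 2 ≤ 2 * P.Lam * (3 / 5 : ℝ) ^ (l - lv k)
  heavy : ∀ i ∈ S, 1 ≤ age i → ∀ k, lv k + age i ≤ l →
    (v i k) ^ 2 ≤ 2 * P.Lam * (3 / 5 : ℝ) ^ (l - age i - lv k)

end P262
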