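import Vale.Agent.P262.Const

/-! P262: from coordinates to the Euclidean statement. -/

namespace P262

open Finset
open scoped RealInnerProductSpace

lemma sum_filter_lt_eq_take {N : ℕ} (L : List (Fin N)) (hlen : L.length = N) (f : Fin N → ℝ)
    (n : ℕ) :
    ∑ i ∈ Finset.univ.filter (fun i : Fin N => (i : ℕ) < n), f (L.get (Fin.cast hlen.symm i)) =
      ((L.take n).map f).sum := by
  induction n with
  | zero => simp
  | succ n ih =>
    by_cases hn : n < N
    · have h1 : L.take (n + 1) = L.take n ++ [L.get ⟨n, by omega⟩] := by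
        rw [List.take_add_one, List.getElem?_eq_getElem (by omega : n < L.length)]
        rfl
      rw [h1, List.map_append, List.sum_append, ← ih]
      have h2 : Finset.univ.filter (fun i : Fin N => (i : ℕ) < n + 1) =
          insert (⟨n, hn⟩ : Fin N) (Finset.univ.filter (fun i : Fin N => (i : ℕ) < n)) := by
        ext i
        simp only [Finset.mem_filter, Finset.mem_univ, true_and, Finset.mem_insert, Fin.ext_iff]
        omega
      rw [h2, Finset.sum_insert (by simp)]
      simp
      rw [add_comm]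
    · have h1 : L.take (n + 1) = L.take n := by
        rw [List.take_of_length_le (by omega), List.take_of_length_le (by omega)]
      rw [h1, ← ih]
      apply Finset.sum_congr _ (fun _ _ => rfl)
      ext i
      simp only [Finset.mem_filter, Finset.mem_univ, true_and]
      have := i.2
      omega

theorem steinitz_polylog26 : ∃ B : ℝ, 0 < B ∧ ∀ (d N : ℕ)
    (v : Fin N → EuclideanSpace ℝ (Fin d)), (∀ i, ‖v i‖ ≤ 1) → ∑ i, v i = 0 →
    ∃ π : Equiv.Perm (Fin N), ∀ n : ℕ,
      ‖∑ i ∈ Finset.univ.filter (fun i : Fin N => (i : ℕ) < n), v (π i)‖ ≤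
        B * Real.sqrt d * (Real.log (d + 1)) ^ 2 := by
  obtain ⟨B, hB, hcore⟩ := core
  refine ⟨B, hB, ?_⟩
  intro d N v hv hsum
  -- the symmetric operator
  let T : EuclideanSpace ℝ (Fin d) →ₗ[ℝ] EuclideanSpace ℝ (Fin d) :=
    ∑ i, ((innerSL ℝ (v i)).toLinearMap).smulRight (v i)
  have hTapp : ∀ x, T x = ∑ i, (inner ℝ (v i) x) • v i := by
    intro x
    simp [T, LinearMap.sum_apply]
  have hT : T.IsSymmetric := by
    intro x y
    rw [hTapp, hTapp, sum_inner, inner_sum]
    refine Finset.sum_congr rfl fun i _ => ?_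
    rw [inner_smul_left, inner_smul_right, real_inner_comm x (v i)]
    simp
    ring
  have hfin : Module.finrank ℝ (EuclideanSpace ℝ (Fin d)) = d := by simp
  set e := hT.eigenvectorBasis hfin with he
  set w : Fin N → Fin d → ℝ := fun i k => inner ℝ (e k) (v i) with hw
  have hw1 : ∀ i, ∑ k, (w i k) ^ 2 ≤ 1 := by
    intro i
    have h1 := e.sum_sq_norm_inner_right (v i)
    have h2 : ∑ k, (w i k) ^ 2 = ‖v i‖ ^ 2 := by
      rw [← h1]
      refine Finset.sum_congr rfl fun k _ => ?_
      rw [hw, Real.norm_eq_abs, sq_abs]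
    rw [h2]
    have := hv i
    have h0 := norm_nonneg (v i)
    nlinarith
  have horth : ∀ k l, k ≠ l → ∑ i, w i k * w i l = 0 := by
    intro k l hkl
    have h1 : ∑ i, w i k * w i l = inner ℝ (e k) (T (e l)) := by
      rw [hTapp, inner_sum]
      refine Finset.sum_congr rfl fun i _ => ?_
      have h2 : inner ℝ (v i) (e l) = inner ℝ (e l) (v i) := real_inner_comm _ _
      rw [inner_smul_right, h2]
      simp only [hw]
      ring
    rw [h1, he, hT.apply_eigenvectorBasis hfin l, inner_smul_right]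
    have h2 : inner ℝ ((hT.eigenvectorBasis hfin) k) ((hT.eigenvectorBasis hfin) l) = (0:ℝ) :=
      (hT.eigenvectorBasis hfin).orthonormal.2 hkl
    rw [h2, mul_zero]
  have hws : ∀ k, ∑ i, w i k = 0 := by
    intro k
    simp only [hw]
    rw [← inner_sum, hsum, inner_zero_right]
  obtain ⟨L, hL1, hL2, hL3⟩ := hcore d (Fin N) w hw1 horth hws
  have hlen : L.length = N := by
    have h1 := List.Nodup.length_le_card hL1
    have h2 : Fintype.card (Fin N) ≤ L.length := by
      rw [← Finset.card_univ]
      have : (Finset.univ : Finset (Fin N)) ⊆ L.toFinset := fun i _ => List.mem_toFinset.2 (hL2 i)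
      exact (Finset.card_le_card this).trans (List.toFinset_card_le L)
    simp only [Fintype.card_fin] at h1 h2
    omega
  have hinj : Function.Injective (fun i : Fin N => L.get (Fin.cast hlen.symm i)) := by
    intro i j hij
    have := (List.Nodup.injective_get hL1) hij
    exact Fin.cast_injective _ this
  let π : Equiv.Perm (Fin N) := Equiv.ofBijective _ ((Finite.injective_iff_bijective).1 hinj)
  refine ⟨π, fun n => ?_⟩
  have hπ : ∀ i, π i = L.get (Fin.cast hlen.symm i) := fun i => rfl
  set s := ∑ i ∈ Finset.univ.filter (fun i : Fin N => (i : ℕ) < n), v (π i) with hs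
  have hsk : ∀ k, inner ℝ (e k) s = ((L.take n).map (fun i => w i k)).sum := by
    intro k
    rw [hs, inner_sum, ← sum_filter_lt_eq_take L hlen (fun i => w i k) n]
    exact Finset.sum_congr rfl fun i _ => by rw [hπ i]
  have hb : ∀ k, (inner ℝ (e k) s) ^ 2 ≤ (B * (Real.log (d + 1)) ^ 2) ^ 2 := by
    intro k
    rw [hsk k, ← sq_abs]
    exact pow_le_pow_left₀ (abs_nonneg _) (hL3 n k) 2
  have hn2 : ‖s‖ ^ 2 ≤ (B * Real.sqrt d * (Real.log (d + 1)) ^ 2) ^ 2 := by
    have h1 := e.sum_sq_norm_inner_right s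
    rw [← h1]
    calc ∑ k, ‖inner ℝ (e k) s‖ ^ 2 = ∑ k, (inner ℝ (e k) s) ^ 2 :=
          Finset.sum_congr rfl fun k _ => by rw [Real.norm_eq_abs, sq_abs]
      _ ≤ ∑ k : Fin d, (B * (Real.log (d + 1)) ^ 2) ^ 2 := Finset.sum_le_sum fun k _ => hb k
      _ = (d : ℝ) * (B * (Real.log (d + 1)) ^ 2) ^ 2 := by
          rw [Finset.sum_const, Finset.card_univ, Fintype.card_fin, nsmul_eq_mul]
      _ = (B * Real.sqrt d * (Real.log (d + 1)) ^ 2) ^ 2 := by
          have : (Real.sqrt d) ^ 2 = d := Real.sq_sqrt (Nat.cast_nonneg d)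
          calc (d : ℝ) * (B * (Real.log (d + 1)) ^ 2) ^ 2
              = (Real.sqrt d) ^ 2 * (B * (Real.log (d + 1)) ^ 2) ^ 2 := by rw [this]
            _ = _ := by ring
  exact le_of_sq_le_sq hn2 (by positivity)

end P262
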