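import Mathlib

/-!
P262 (Euclidean Steinitz constant up to polylog).  Interface of the modules that can be farmed out.
All statements are elementary and self-contained.  Work in namespace `P262`.
-/

namespace P262

open scoped BigOperators

/-- **S1** (file `Round.lean`). Derandomised self-balancing rounding.

Proof. Enumerate `F` as a list `i₁,…,i_n`; state `s : T → ℝ` (start `0`), after item `i` the state is
`s + (1 - x i) u i` or `s - x i u i`.  An *atom* is a pair `(φ : T → ℝ, C : ℝ)`, its value at `s` is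
`exp (⟨s, φ⟩ + C)`.  Put `κ = 1/4`, `σ² = 2c`.  Final atoms: `(± κ e_t, -κ c)` for `t : T`.
Transform of an atom by an item `(x,u)`: `φ' = φ - (x(1-x)/c) ⟨u,φ⟩ u`, `C' = C + 2 x (1-x) ⟨u,φ⟩²`.
Backwards: `atoms_{j-1} = transform (x_j,u_j) atoms_j ∪ {(± κ u_j, -κ c)}`.
* Invariant: `‖φ‖ ≤ κ` and `C + 2c‖φ‖² ≤ -c/8`, preserved by transform (uses `x(1-x)/c * ‖u‖² ≤ 1`), true for
  the new atoms (`-κc + 2cκ²‖u‖² ≤ -c/4+c/8`).
* Averaging: if `|⟨s,u⟩| ≤ c` put `r = ⟨s,u⟩/c`, `p = x - x(1-x) r ∈ [0,1]`; for every atom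
  `p exp⟨s+(1-x)u,φ⟩ + (1-p) exp⟨s-xu,φ⟩ ≤ exp(⟨s,φ'⟩ + 2x(1-x)⟨u,φ⟩²)` because with `y = ⟨u,φ⟩`, `|y| ≤ 1/4`,
  `e^z ≤ 1+z+z²` for `|z| ≤ 1`, mean of `δ` is `-x(1-x)r`, second moment `x(1-x)(1-r(1-2x)) ≤ 2x(1-x)`.
  Hence one of the two choices does not increase the sum of the values of the atoms.
* If the sum of values of `atoms_{j-1}` at `s` is `< 1` then `|⟨s,u_j⟩| < c` automatically (because of the two
  new atoms), so we can continue; at the end `< 1` gives `|s t| < c` for all `t`.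
* At the start `s = 0` the sum is `Σ exp C ≤ 2(n+|T|) exp(-c/8) < 1`. -/
theorem exists_rounding {ι T : Type*} [DecidableEq ι] [Fintype T] [DecidableEq T]
    (F : Finset ι) (x : ι → ℝ) (hx : ∀ i ∈ F, 0 ≤ x i ∧ x i ≤ 1)
    (u : ι → T → ℝ) (hu : ∀ i ∈ F, ∑ t, (u i t) ^ 2 ≤ 1)
    (c : ℝ) (hc : 1 ≤ c)
    (hsmall : 2 * ((F.card : ℝ) + Fintype.card T) * Real.exp (-c / 8) < 1) :
    ∃ y : ι → ℝ, (∀ i ∈ F, y i = 0 ∨ y i = 1) ∧
      ∀ t, |∑ i ∈ F, (y i - x i) * u i t| ≤ c := by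
  sorry

/-- **S2** (file `Vertex.lean`). A point of the cube can be moved, keeping `m` linear functionals, until at most
`m` coordinates are fractional.  Proof: take `z` feasible with the least number of fractional coordinates; if
more than `m` are fractional there is a nonzero `w` supported on them with `Σ w i * f i c = 0`
(`exists_nontrivial_relation_of_finrank_lt_card` or a kernel-dimension argument); move `z + t w` until the
first coordinate becomes `0` or `1`. -/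
theorem exists_vertex {ι C : Type*} [DecidableEq ι] [Fintype C]
    (W : Finset ι) (x : ι → ℝ) (hx : ∀ i ∈ W, 0 ≤ x i ∧ x i ≤ 1) (f : ι → C → ℝ) :
    ∃ z : ι → ℝ, (∀ i ∈ W, 0 ≤ z i ∧ z i ≤ 1) ∧
      (∀ c, ∑ i ∈ W, z i * f i c = ∑ i ∈ W, x i * f i c) ∧
      (W.filter (fun i => z i ≠ 0 ∧ z i ≠ 1)).card ≤ Fintype.card C := by
  sorry

/-- **S3** (file `Tilt.lean`). Solving the normal equations on the long coordinates `Lg`. -/
theorem exists_tilt {ι κ : Type*} [Fintype κ] [DecidableEq κ]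
    (W : Finset ι) (v : ι → κ → ℝ) (Lg : Finset κ) (lam : κ → ℝ) (hlam : ∀ k ∈ Lg, 0 < lam k)
    (hlow : ∀ u : κ → ℝ, (∀ k, k ∉ Lg → u k = 0) →
      (1 / 2) * ∑ k ∈ Lg, lam k * (u k) ^ 2 ≤ ∑ i ∈ W, (∑ k, v i k * u k) ^ 2)
    (c : κ → ℝ) :
    ∃ g : κ → ℝ, (∀ k, k ∉ Lg → g k = 0) ∧
      (∀ k ∈ Lg, ∑ i ∈ W, (∑ l, v i l * g l) * v i k = c k) ∧
      ∑ k ∈ Lg, lam k * (g k) ^ 2 ≤ 4 * ∑ k ∈ Lg, (c k) ^ 2 / lam k := by
  sorry

/-- **Core** (file `Core.lean`, helper26). Coordinates in the eigenbasis; order of all indices with every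
coordinate of every prefix sum at most `B * (log (d+1))^2`. -/
theorem core : ∃ B : ℝ, 0 < B ∧ ∀ (d : ℕ) (ι : Type) [Fintype ι] [DecidableEq ι]
    (v : ι → Fin d → ℝ), (∀ i, ∑ k, (v i k) ^ 2 ≤ 1) →
    (∀ k l, k ≠ l → ∑ i, v i k * v i l = 0) → (∀ k, ∑ i, v i k = 0) →
    ∃ L : List ι, L.Nodup ∧ (∀ i, i ∈ L) ∧
      ∀ (n : ℕ) (k : Fin d), |((L.take n).map (fun i => v i k)).sum| ≤ B * (Real.log (d + 1)) ^ 2 := by
  sorry

/-- **Final** (file `Final.lean`). From `core` by the orthonormal eigenbasis of the symmetric operator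
`x ↦ ∑ i, ⟪v i, x⟫ • v i` (`LinearMap.IsSymmetric.eigenvectorBasis`), and a `Nodup` list of all of `Fin N`
as a permutation. -/
theorem steinitz_polylog : ∃ B : ℝ, 0 < B ∧ ∀ (d N : ℕ)
    (v : Fin N → EuclideanSpace ℝ (Fin d)), (∀ i, ‖v i‖ ≤ 1) → ∑ i, v i = 0 →
    ∃ π : Equiv.Perm (Fin N), ∀ n : ℕ,
      ‖∑ i ∈ Finset.univ.filter (fun i : Fin N => (i : ℕ) < n), v (π i)‖ ≤
        B * Real.sqrt d * (Real.log (d + 1)) ^ 2 := by
  sorry

end P262
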