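import Vale.Agent.P262.StepG

/-! P262: the recursion and the root. -/

set_option linter.unusedSectionVars false

namespace P262

open Finset
open scoped Classical

variable {d : ℕ} {ι : Type}

lemma sum_take_toFinset (L : List ι) (hL : L.Nodup) (n : ℕ) (f : ι → ℝ) :
    ((L.take n).map f).sum = ∑ i ∈ (L.take n).toFinset, f i := by
  rw [List.sum_toFinset]
  exact hL.sublist (List.take_sublist n L)

lemma sum_all_toFinset (L : List ι) (hL : L.Nodup) (S : Finset ι) (hS : ∀ i, i ∈ L ↔ i ∈ S)
    (f : ι → ℝ) : (L.map f).sum = ∑ i ∈ S, f i := by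
  rw [← List.sum_toFinset _ hL]
  apply Finset.sum_congr _ (fun _ _ => rfl)
  ext i
  rw [List.mem_toFinset]; exact hS i

theorem main_rec (P : Par d) (G : P.Good) (lam : Fin d → ℝ) (lv : Fin d → ℕ)
    (hlv : ∀ l k, l < lv k ↔ P.Lam ≤ lam k / 2 ^ l) (hlam : ∀ k, 0 ≤ lam k)
    (v : ι → Fin d → ℝ) (hv : ∀ i, ∑ k, (v i k) ^ 2 ≤ 1) :
    ∀ (N : ℕ) (l : ℕ) (S : Finset ι) (age : ι → ℕ), mu P S age ≤ N →
      InvS P v lam lv l S age → ∀ a b : Fin d → ℝ,
      (∀ k, b k = a k + ∑ i ∈ S, v i k) →
      (∀ k, |a k| ≤ P.bet (l - lv k)) → (∀ k, |b k| ≤ P.bet (l - lv k)) →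
      ∃ L : List ι, L.Nodup ∧ (∀ i, i ∈ L ↔ i ∈ S) ∧
        ∀ (n : ℕ) (k : Fin d), |a k + ((L.take n).map (fun i => v i k)).sum| ≤ P.btot := by
  intro N
  induction N with
  | zero =>
    intro l S age hmu I a b _ ha _
    have hS : S = ∅ := by
      by_contra hne
      obtain ⟨i, hi⟩ := Finset.nonempty_iff_ne_empty.2 hne
      have h1 : wt P (age i) ≤ mu P S age :=
        Finset.single_le_sum (f := fun i => wt P (age i)) (fun _ _ => Nat.zero_le _) hi
      have h2 := wt_pos P _ (I.age_le i hi)
      omega
    subst hS
    refine ⟨[], List.nodup_nil, fun i => by simp, fun n k => ?_⟩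
    simp only [List.take_nil, List.map_nil, List.sum_nil, add_zero]
    exact (ha k).trans (P.bet_le_btot _)
  | succ N ih =>
    intro l S age hmu I a b hab ha hb
    by_cases hS : S.Nonempty
    · obtain ⟨SL, SR, ag, hdis, hun, IL, IR, hmid, hmuL, hmuR⟩ :=
        step P G lam lv hlv hlam v hv l S age I hS a b hab ha hb
      set R := S.filter (fun i => age i = P.K + 1) with hR
      have hmono : ∀ k, P.bet (l - lv k) ≤ P.bet (l + 1 - lv k) := fun k =>
        P.bet_mono (by omega)
      have hSsum : ∀ k, ∑ i ∈ S, v i k = ∑ i ∈ SL, v i k + ∑ i ∈ SR, v i k + ∑ i ∈ R, v i k := by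
        intro k
        rw [← Finset.sum_union hdis, hun, hR]
        rw [← Finset.sum_filter_add_sum_filter_not S (fun i => age i ≤ P.K)]
        congr 1
        apply Finset.sum_congr _ (fun _ _ => rfl)
        apply Finset.filter_congr
        intro i hi
        have := I.age_le i hi
        constructor <;> intro h <;> omega
      obtain ⟨L1, hL1n, hL1m, hL1⟩ := ih (l + 1) SL ag (by omega) IL a
        (fun k => a k + ∑ i ∈ SL, v i k) (fun k => rfl)
        (fun k => (ha k).trans (hmono k))
        (fun k => by
          have := hmid ∅ (Finset.empty_subset _) k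
          simpa using this)
      obtain ⟨L2, hL2n, hL2m, hL2⟩ := ih (l + 1) SR ag (by omega) IR
        (fun k => a k + ∑ i ∈ SL, v i k + ∑ i ∈ R, v i k) b
        (fun k => by rw [hab k, hSsum k]; ring)
        (fun k => hmid R (Finset.Subset.refl _) k)
        (fun k => (hb k).trans (hmono k))
      have hTS : ∀ i, i ∈ S ↔ (i ∈ SL ∨ i ∈ SR) ∨ i ∈ R := by
        intro i
        rw [← Finset.mem_union, hun, hR, Finset.mem_filter, Finset.mem_filter]
        constructor
        · intro h
          have := I.age_le i h
          by_cases h1 : age i ≤ P.K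
          · left; exact ⟨h, h1⟩
          · right; exact ⟨h, by omega⟩
        · rintro (h | h) <;> exact h.1
      have hSLR : ∀ i, i ∈ SL → i ∉ R := by
        intro i h h2
        have h3 : i ∈ SL ∪ SR := Finset.mem_union_left _ h
        rw [hun, Finset.mem_filter] at h3
        rw [hR, Finset.mem_filter] at h2
        omega
      have hSRR : ∀ i, i ∈ SR → i ∉ R := by
        intro i h h2
        have h3 : i ∈ SL ∪ SR := Finset.mem_union_right _ h
        rw [hun, Finset.mem_filter] at h3
        rw [hR, Finset.mem_filter] at h2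
        omega
      refine ⟨L1 ++ (R.toList ++ L2), ?_, ?_, ?_⟩
      · rw [List.nodup_append, List.nodup_append]
        refine ⟨hL1n, ⟨Finset.nodup_toList R, hL2n, ?_⟩, ?_⟩
        · intro x hx y hy hxy
          subst hxy
          rw [Finset.mem_toList] at hx
          exact hSRR x ((hL2m x).1 hy) hx
        · intro x hx y hy hxy
          subst hxy
          rw [List.mem_append, Finset.mem_toList] at hy
          have hx' := (hL1m x).1 hx
          rcases hy with h | h
          · exact hSLR x hx' h
          · exact (Finset.disjoint_left.1 hdis) hx' ((hL2m x).1 h)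
      · intro i
        rw [List.mem_append, List.mem_append, Finset.mem_toList, hL1m, hL2m, hTS]
        tauto
      · intro n k
        rw [List.take_append, List.take_append, List.map_append, List.map_append,
          List.sum_append, List.sum_append]
        rcases Nat.le_total n L1.length with hn | hn
        · have e1 : n - L1.length = 0 := by omega
          rw [e1]
          simp only [List.take_zero, List.map_nil, List.sum_nil, Nat.zero_sub, add_zero]
          exact hL1 n k
        · have e1 : L1.take n = L1 := List.take_of_length_le hn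
          rw [e1, sum_all_toFinset L1 hL1n SL hL1m]
          rcases Nat.le_total (n - L1.length) R.toList.length with hn2 | hn2
          · have e2 : n - L1.length - R.toList.length = 0 := by omega
            rw [e2]
            simp only [List.take_zero, List.map_nil, List.sum_nil, add_zero]
            rw [sum_take_toFinset _ (Finset.nodup_toList R), ← add_assoc]
            refine (hmid _ ?_ k).trans (P.bet_le_btot _)
            intro i hi
            rw [List.mem_toFinset] at hi
            exact (Finset.mem_toList).1 (List.mem_of_mem_take hi)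
          · have e2 : R.toList.take (n - L1.length) = R.toList := List.take_of_length_le hn2
            rw [e2, sum_all_toFinset R.toList (Finset.nodup_toList R) R
              (fun i => Finset.mem_toList)]
            have := hL2 (n - L1.length - R.toList.length) k
            rw [← add_assoc, ← add_assoc]
            exact this
    · rw [Finset.not_nonempty_iff_eq_empty] at hS
      subst hS
      refine ⟨[], List.nodup_nil, fun i => by simp, fun n k => ?_⟩
      simp only [List.take_nil, List.map_nil, List.sum_nil, add_zero]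
      exact (ha k).trans (P.bet_le_btot _)

lemma exists_lv (Lam : ℝ) (hL : 0 < Lam) (lam : ℝ) (hlam : 0 ≤ lam) :
    ∃ n : ℕ, ∀ l : ℕ, l < n ↔ Lam ≤ lam / 2 ^ l := by
  have hex : ∃ n : ℕ, lam / 2 ^ n < Lam := by
    obtain ⟨n, hn⟩ := pow_unbounded_of_one_lt (lam / Lam) (by norm_num : (1:ℝ) < 2)
    refine ⟨n, ?_⟩
    rw [div_lt_iff₀ hL] at hn
    rw [div_lt_iff₀ (by positivity)]
    linarith
  refine ⟨Nat.find hex, fun l => ?_⟩
  constructor
  · intro h
    have := Nat.find_min hex h
    push Not at this; exact this
  · intro h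
    by_contra hcon
    push Not at hcon
    have h1 := Nat.find_spec hex
    have h2 : lam / 2 ^ l ≤ lam / 2 ^ (Nat.find hex) := by
      apply div_le_div_of_nonneg_left hlam (by positivity)
      exact pow_le_pow_right₀ (by norm_num) hcon
    linarith

theorem core_par (P : Par d) (G : P.Good) [Fintype ι] (v : ι → Fin d → ℝ)
    (hv : ∀ i, ∑ k, (v i k) ^ 2 ≤ 1)
    (horth : ∀ k l, k ≠ l → ∑ i, v i k * v i l = 0) (hsum : ∀ k, ∑ i, v i k = 0) :
    ∃ L : List ι, L.Nodup ∧ (∀ i, i ∈ L) ∧
      ∀ (n : ℕ) (k : Fin d), |((L.take n).map (fun i => v i k)).sum| ≤ P.btot := by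
  set lam : Fin d → ℝ := fun k => ∑ i, (v i k) ^ 2 with hlamdef
  have hlam : ∀ k, 0 ≤ lam k := fun k => Finset.sum_nonneg fun _ _ => sq_nonneg _
  choose lv hlv' using fun k => exists_lv P.Lam G.hL0 (lam k) (hlam k)
  have hlv : ∀ l k, l < lv k ↔ P.Lam ≤ lam k / 2 ^ l := fun l k => hlv' k l
  have hb1 := P.b1_ge
  have hfil : (Finset.univ : Finset ι).filter (fun _ => (0:ℕ) = 0) = Finset.univ := by
    simp
  have I : InvS P v lam lv 0 Finset.univ (fun _ : ι => 0) := by
    refine ⟨fun _ _ => Nat.zero_le _, ?_, ?_, ?_, ?_⟩
    · intro j hj1 _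
      have : (Finset.univ : Finset ι).filter (fun _ => (0:ℕ) = j) = ∅ := by
        apply Finset.filter_eq_empty_iff.2
        intro _ _; omega
      rw [this]
      simp only [Finset.card_empty, Nat.cast_zero]
      positivity
    · intro u
      have e : ∑ i ∈ (Finset.univ : Finset ι).filter (fun _ => (0:ℕ) = 0),
          (∑ k, v i k * u k) ^ 2 = ∑ k, lam k / 2 ^ 0 * (u k) ^ 2 := by
        rw [hfil]
        calc ∑ i, (∑ k, v i k * u k) ^ 2
            = ∑ i, ∑ k, ∑ l, (u k * u l) * (v i k * v i l) := by
              refine Finset.sum_congr rfl fun i _ => ?_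
              rw [sq, Finset.sum_mul_sum]
              exact Finset.sum_congr rfl fun k _ => Finset.sum_congr rfl fun l _ => by ring
          _ = ∑ k, ∑ l, (u k * u l) * ∑ i, v i k * v i l := by
              rw [Finset.sum_comm]
              refine Finset.sum_congr rfl fun k _ => ?_
              rw [Finset.sum_comm]
              exact Finset.sum_congr rfl fun l _ => by rw [Finset.mul_sum]
          _ = ∑ k, lam k / 2 ^ 0 * (u k) ^ 2 := by
              refine Finset.sum_congr rfl fun k _ => ?_
              rw [Finset.sum_eq_single k]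
              · rw [pow_zero, div_one, hlamdef]
                have : ∑ i, v i k * v i k = ∑ i, (v i k) ^ 2 :=
                  Finset.sum_congr rfl fun i _ => by ring
                rw [this]; ring
              · intro l _ hl
                rw [horth k l (Ne.symm hl)]; ring
              · intro h; exact absurd (Finset.mem_univ k) h
      rw [e, sub_self, abs_zero]
      have h1 : 0 ≤ dl P lam 0 := dl_nonneg P G lam lv hlv hlam 0
      have h2 : 0 ≤ ∑ k, lam k / 2 ^ 0 * (u k) ^ 2 := Finset.sum_nonneg fun k _ =>
        mul_nonneg (div_nonneg (hlam k) (by positivity)) (sq_nonneg _)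
      have h3 : 0 ≤ P.CQ := by unfold Par.CQ; positivity
      have h4 : 0 ≤ ∑ k, (u k) ^ 2 := Finset.sum_nonneg fun _ _ => sq_nonneg _
      positivity
    · intro k hk
      rw [hfil]
      have h1 : ¬ (P.Lam ≤ lam k / 2 ^ 0) := by
        rw [← hlv 0 k]; omega
      push Not at h1
      rw [pow_zero, div_one] at h1
      have e : 0 - lv k = 0 := by omega
      rw [e, pow_zero]
      have hL := G.hL0
      have : ∑ i, (v i k) ^ 2 = lam k := rfl
      rw [this]
      linarith
    · intro i _ h
      omega
  obtain ⟨L, h1, h2, h3⟩ := main_rec P G lam lv hlv hlam v hv _ 0 Finset.univ (fun _ => 0) le_rfl I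
    (fun _ => 0) (fun _ => 0) (fun k => by rw [hsum k]; ring)
    (fun k => by
      rw [abs_zero]
      exact (by linarith [P.b0_ge] : (0:ℝ) ≤ P.b0).trans (P.b0_le_bet _))
    (fun k => by
      rw [abs_zero]
      exact (by linarith [P.b0_ge] : (0:ℝ) ≤ P.b0).trans (P.b0_le_bet _))
  refine ⟨L, h1, fun i => (h2 i).2 (Finset.mem_univ i), fun n k => ?_⟩
  have := h3 n k
  rwa [zero_add] at this

end P262
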