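import Mathlib

/-!
P262, module S1: derandomised self-balancing rounding.
-/

namespace P262

open scoped BigOperators

section round

variable {T : Type*} [Fintype T]

/-- value of a list of atoms at the state `s` -/
private noncomputable def val (A : List ((T → ℝ) × ℝ)) (s : T → ℝ) : ℝ :=
  (A.map fun a => Real.exp (∑ t, s t * a.1 t + a.2)).sum

private lemma val_append (A B : List ((T → ℝ) × ℝ)) (s : T → ℝ) :
    val (A ++ B) s = val A s + val B s := by
  simp [val]

private lemma val_nonneg (A : List ((T → ℝ) × ℝ)) (s : T → ℝ) : 0 ≤ val A s := by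
  apply List.sum_nonneg
  intro x hx
  obtain ⟨a, _, rfl⟩ := List.mem_map.1 hx
  exact (Real.exp_pos _).le

private lemma le_val {A : List ((T → ℝ) × ℝ)} {a : (T → ℝ) × ℝ} (ha : a ∈ A) (s : T → ℝ) :
    Real.exp (∑ t, s t * a.1 t + a.2) ≤ val A s := by
  apply List.single_le_sum
  · intro x hx
    obtain ⟨a, _, rfl⟩ := List.mem_map.1 hx
    exact (Real.exp_pos _).le
  · exact List.mem_map.2 ⟨a, ha, rfl⟩

/-- the invariant of an atom -/
private def Inv (c : ℝ) (a : (T → ℝ) × ℝ) : Prop :=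
  ∑ t, a.1 t ^ 2 ≤ 1 / 16 ∧ a.2 + 2 * c * ∑ t, a.1 t ^ 2 ≤ -c / 8

/-- transform of an atom by an item -/
private noncomputable def tr (c x : ℝ) (u : T → ℝ) (a : (T → ℝ) × ℝ) : (T → ℝ) × ℝ :=
  (fun t => a.1 t - x * (1 - x) / c * (∑ r, u r * a.1 r) * u t,
    a.2 + 2 * (x * (1 - x)) * (∑ r, u r * a.1 r) ^ 2)

private lemma inv_tr {c x : ℝ} (hc : 1 ≤ c) (hx0 : 0 ≤ x) (hx1 : x ≤ 1) {u : T → ℝ}
    (hu : ∑ t, u t ^ 2 ≤ 1) {a : (T → ℝ) × ℝ} (ha : Inv c a) : Inv c (tr c x u a) := by
  set y := ∑ r, u r * a.1 r with hy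
  set w := x * (1 - x) with hw
  have hw0 : 0 ≤ w := mul_nonneg hx0 (by linarith)
  have hw1 : w ≤ 1 := by nlinarith
  have hc0 : 0 < c := by linarith
  have e1 : ∑ t, (tr c x u a).1 t ^ 2 =
      ∑ t, a.1 t ^ 2 - 2 * (w / c) * y ^ 2 + (w / c) ^ 2 * y ^ 2 * ∑ t, u t ^ 2 := by
    have : ∀ t, (tr c x u a).1 t ^ 2 = a.1 t ^ 2 - 2 * (w / c) * y * (u t * a.1 t) +
        (w / c) ^ 2 * y ^ 2 * u t ^ 2 := by
      intro t; simp only [tr, ← hy, ← hw]; ring
    rw [Finset.sum_congr rfl fun t _ => this t, Finset.sum_add_distrib, Finset.sum_sub_distrib,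
      ← Finset.mul_sum, ← Finset.mul_sum, ← hy]
    ring
  have hq0 : 0 ≤ w / c := div_nonneg hw0 hc0.le
  have hq1 : w / c ≤ 1 := by rw [div_le_one hc0]; linarith
  have e2 : (w / c) ^ 2 * y ^ 2 * ∑ t, u t ^ 2 ≤ (w / c) * y ^ 2 := by
    have h1 : (w / c) ^ 2 * y ^ 2 * ∑ t, u t ^ 2 ≤ (w / c) ^ 2 * y ^ 2 * 1 := by gcongr
    have h2 : (w / c) ^ 2 * y ^ 2 ≤ (w / c) * y ^ 2 := by
      have : (w / c) ^ 2 ≤ w / c := by nlinarith
      gcongr
    linarith
  have e3 : ∑ t, (tr c x u a).1 t ^ 2 ≤ ∑ t, a.1 t ^ 2 - (w / c) * y ^ 2 := by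
    rw [e1]; linarith
  refine ⟨?_, ?_⟩
  · have : 0 ≤ (w / c) * y ^ 2 := by positivity
    linarith [ha.1]
  · have e4 : (tr c x u a).2 = a.2 + 2 * w * y ^ 2 := by simp only [tr, ← hy, ← hw]
    rw [e4]
    have e5 : 2 * c * ∑ t, (tr c x u a).1 t ^ 2 ≤ 2 * c * (∑ t, a.1 t ^ 2 - (w / c) * y ^ 2) := by
      gcongr
    have e6 : 2 * c * (∑ t, a.1 t ^ 2 - (w / c) * y ^ 2) = 2 * c * ∑ t, a.1 t ^ 2 - 2 * w * y ^ 2 := by
      field_simp
    linarith [ha.2]

private lemma avg_le {c x : ℝ} (hc : 1 ≤ c) (hx0 : 0 ≤ x) (hx1 : x ≤ 1) {u : T → ℝ}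
    (hu : ∑ t, u t ^ 2 ≤ 1) {a : (T → ℝ) × ℝ} (ha : Inv c a) {s : T → ℝ}
    (hs : |∑ t, s t * u t| ≤ c) :
    (x - x * (1 - x) * ((∑ t, s t * u t) / c)) *
        Real.exp (∑ t, (s t + (1 - x) * u t) * a.1 t + a.2) +
      (1 - (x - x * (1 - x) * ((∑ t, s t * u t) / c))) *
        Real.exp (∑ t, (s t + (0 - x) * u t) * a.1 t + a.2) ≤
      Real.exp (∑ t, s t * (tr c x u a).1 t + (tr c x u a).2) := by
  set y := ∑ r, u r * a.1 r with hy
  set w := x * (1 - x) with hw
  set r := (∑ t, s t * u t) / c with hr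
  have hc0 : 0 < c := by linarith
  have hw0 : 0 ≤ w := mul_nonneg hx0 (by linarith)
  have hr1 : |r| ≤ 1 := by rw [hr, abs_div, abs_of_pos hc0, div_le_one hc0]; exact hs
  obtain ⟨hr2, hr3⟩ := abs_le.1 hr1
  have hp0 : 0 ≤ x - w * r := by nlinarith
  have hp1 : x - w * r ≤ 1 := by nlinarith
  -- |y| ≤ 1/4
  have hy2 : y ^ 2 ≤ 1 / 16 := by
    have h1 := Finset.sum_mul_sq_le_sq_mul_sq Finset.univ u a.1
    rw [← hy] at h1
    have h2 : (∑ t, u t ^ 2) * ∑ t, a.1 t ^ 2 ≤ 1 * (1 / 16) := by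
      gcongr
      exact ha.1
    linarith
  have hy1 : |y| ≤ 1 / 4 := by
    apply abs_le_of_sq_le_sq _ (by norm_num)
    linarith
  obtain ⟨hy3, hy4⟩ := abs_le.1 hy1
  have key : ∀ z : ℝ, |z| ≤ 1 → Real.exp z ≤ 1 + z + z ^ 2 := by
    intro z hz
    have := Real.abs_exp_sub_one_sub_id_le hz
    linarith [(abs_le.1 this).2]
  have h1 : ∀ b : ℝ, ∑ t, (s t + b * u t) * a.1 t = ∑ t, s t * a.1 t + b * y := by
    intro b
    rw [hy, Finset.mul_sum, ← Finset.sum_add_distrib]
    refine Finset.sum_congr rfl fun t _ => ?_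
    ring
  have h2 : ∑ t, s t * (tr c x u a).1 t = ∑ t, s t * a.1 t - w * r * y := by
    have : ∀ t, s t * (tr c x u a).1 t = s t * a.1 t - w / c * y * (s t * u t) := by
      intro t; simp only [tr, ← hy, ← hw]; ring
    rw [Finset.sum_congr rfl fun t _ => this t, Finset.sum_sub_distrib, ← Finset.mul_sum, hr]
    ring
  have h3 : (tr c x u a).2 = a.2 + 2 * w * y ^ 2 := by simp only [tr, ← hy, ← hw]
  rw [h1, h1, h2, h3]
  set E := ∑ t, s t * a.1 t + a.2 with hE
  have e1 : ∑ t, s t * a.1 t + (1 - x) * y + a.2 = E + (1 - x) * y := by rw [hE]; ring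
  have e2 : ∑ t, s t * a.1 t + (0 - x) * y + a.2 = E + (-(x * y)) := by rw [hE]; ring
  have e3 : ∑ t, s t * a.1 t - w * r * y + (a.2 + 2 * w * y ^ 2) =
      E + (-(w * r * y) + 2 * w * y ^ 2) := by rw [hE]; ring
  rw [e1, e2, e3, Real.exp_add E, Real.exp_add E, Real.exp_add E]
  have k1 := key ((1 - x) * y) (by
    rw [abs_mul, abs_of_nonneg (by linarith)]; nlinarith [abs_nonneg y])
  have k2 := key (-(x * y)) (by
    rw [abs_neg, abs_mul, abs_of_nonneg hx0]; nlinarith [abs_nonneg y])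
  have k3 := Real.add_one_le_exp (-(w * r * y) + 2 * w * y ^ 2)
  have k4 : (x - w * r) * Real.exp ((1 - x) * y) ≤ (x - w * r) * (1 + (1 - x) * y + ((1 - x) * y) ^ 2) := by
    gcongr
  have k5 : (1 - (x - w * r)) * Real.exp (-(x * y)) ≤
      (1 - (x - w * r)) * (1 + (-(x * y)) + (-(x * y)) ^ 2) := by
    apply mul_le_mul_of_nonneg_left k2; linarith
  have k6 : (x - w * r) * (1 + (1 - x) * y + ((1 - x) * y) ^ 2) +
      (1 - (x - w * r)) * (1 + (-(x * y)) + (-(x * y)) ^ 2) =
      1 - w * r * y + w * (1 - r * (1 - 2 * x)) * y ^ 2 := by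
    rw [hw]; ring
  have k7 : w * (1 - r * (1 - 2 * x)) * y ^ 2 ≤ 2 * w * y ^ 2 := by
    have : 1 - r * (1 - 2 * x) ≤ 2 := by nlinarith
    have : w * (1 - r * (1 - 2 * x)) ≤ w * 2 := by gcongr
    nlinarith [sq_nonneg y]
  have hEpos := Real.exp_pos E
  calc (x - w * r) * (Real.exp E * Real.exp ((1 - x) * y)) +
        (1 - (x - w * r)) * (Real.exp E * Real.exp (-(x * y)))
      = Real.exp E * ((x - w * r) * Real.exp ((1 - x) * y) +
        (1 - (x - w * r)) * Real.exp (-(x * y))) := by ring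
    _ ≤ Real.exp E * Real.exp (-(w * r * y) + 2 * w * y ^ 2) := by
        apply mul_le_mul_of_nonneg_left _ hEpos.le
        linarith

private lemma val_avg {c x : ℝ} (hc : 1 ≤ c) (hx0 : 0 ≤ x) (hx1 : x ≤ 1) {u : T → ℝ}
    (hu : ∑ t, u t ^ 2 ≤ 1) {A : List ((T → ℝ) × ℝ)} (hA : ∀ a ∈ A, Inv c a) {s : T → ℝ}
    (hs : |∑ t, s t * u t| ≤ c) :
    (x - x * (1 - x) * ((∑ t, s t * u t) / c)) * val A (fun t => s t + (1 - x) * u t) +
      (1 - (x - x * (1 - x) * ((∑ t, s t * u t) / c))) * val A (fun t => s t + (0 - x) * u t) ≤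
      val (A.map (tr c x u)) s := by
  induction A with
  | nil => simp [val]
  | cons a A ih =>
    have h1 := ih fun b hb => hA b (List.mem_cons_of_mem _ hb)
    have h2 := avg_le hc hx0 hx1 hu (hA a List.mem_cons_self) hs
    simp only [val, List.map_cons, List.sum_cons] at h1 ⊢
    linarith

private lemma claim {ι : Type*} [DecidableEq ι] [DecidableEq T]
    (x : ι → ℝ) (u : ι → T → ℝ) (c : ℝ) (hc : 1 ≤ c) (F : Finset ι)
    (hx : ∀ i ∈ F, 0 ≤ x i ∧ x i ≤ 1) (hu : ∀ i ∈ F, ∑ t, (u i t) ^ 2 ≤ 1) :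
    ∃ A : List ((T → ℝ) × ℝ), (A.length : ℝ) ≤ 2 * ((F.card : ℝ) + Fintype.card T) ∧
      (∀ a ∈ A, Inv c a) ∧ ∀ s : T → ℝ, val A s < 1 →
        ∃ y : ι → ℝ, (∀ i ∈ F, y i = 0 ∨ y i = 1) ∧
          ∀ t, |s t + ∑ i ∈ F, (y i - x i) * u i t| ≤ c := by
  induction F using Finset.induction_on with
  | empty =>
    refine ⟨(Finset.univ.toList.map fun t => ((fun r => if r = t then 1 / 4 else 0), -c / 4)) ++
      (Finset.univ.toList.map fun t => ((fun r => if r = t then -1 / 4 else 0), -c / 4)), ?_, ?_, ?_⟩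
    · simp; linarith
    · intro a ha
      rw [List.mem_append, List.mem_map, List.mem_map] at ha
      rcases ha with ⟨t, _, rfl⟩ | ⟨t, _, rfl⟩ <;>
      · refine ⟨?_, ?_⟩ <;> simp [ite_pow] <;> norm_num <;> linarith
    · intro s hs
      refine ⟨fun _ => 0, by simp, fun t => ?_⟩
      rw [val_append] at hs
      have h1 := le_val (A := Finset.univ.toList.map fun t =>
        (((fun r => if r = t then 1 / 4 else 0), -c / 4) : (T → ℝ) × ℝ))
        (a := ((fun r => if r = t then 1 / 4 else 0), -c / 4))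
        (List.mem_map.2 ⟨t, by simp, rfl⟩) s
      have h2 := le_val (A := Finset.univ.toList.map fun t =>
        (((fun r => if r = t then -1 / 4 else 0), -c / 4) : (T → ℝ) × ℝ))
        (a := ((fun r => if r = t then -1 / 4 else 0), -c / 4))
        (List.mem_map.2 ⟨t, by simp, rfl⟩) s
      have h3 := val_nonneg (Finset.univ.toList.map fun t =>
        (((fun r => if r = t then 1 / 4 else 0), -c / 4) : (T → ℝ) × ℝ)) s
      have h4 := val_nonneg (Finset.univ.toList.map fun t =>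
        (((fun r => if r = t then -1 / 4 else 0), -c / 4) : (T → ℝ) × ℝ)) s
      have h5 : Real.exp (s t * (1 / 4) + -c / 4) < 1 := by
        simp at h1
        have : s t * (1 / 4) + -c / 4 = s t * 4⁻¹ + -c / 4 := by norm_num
        rw [this]
        linarith
      have h6 : Real.exp (s t * (-1 / 4) + -c / 4) < 1 := by
        simp at h2
        linarith
      rw [Real.exp_lt_one_iff] at h5 h6
      simp only [Finset.sum_empty, add_zero]
      rw [abs_le]
      constructor <;> linarith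
  | insert i F hi ih =>
    obtain ⟨A, hlen, hinv, hA⟩ := ih (fun j hj => hx j (Finset.mem_insert_of_mem hj))
      (fun j hj => hu j (Finset.mem_insert_of_mem hj))
    have hxi := hx i (Finset.mem_insert_self i F)
    have hui := hu i (Finset.mem_insert_self i F)
    refine ⟨A.map (tr c (x i) (u i)) ++ [((fun t => 1 / 4 * u i t), -c / 4),
      ((fun t => -1 / 4 * u i t), -c / 4)], ?_, ?_, ?_⟩
    · rw [Finset.card_insert_of_notMem hi]
      simp; linarith
    · intro a ha
      rw [List.mem_append] at ha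
      rcases ha with ha | ha
      · obtain ⟨b, hb, rfl⟩ := List.mem_map.1 ha
        exact inv_tr hc hxi.1 hxi.2 hui (hinv b hb)
      · have hsum : ∀ κ : ℝ, ∑ t, (κ * u i t) ^ 2 = κ ^ 2 * ∑ t, u i t ^ 2 := by
          intro κ; rw [Finset.mul_sum]; refine Finset.sum_congr rfl fun t _ => by ring
        have h0 : 0 ≤ ∑ t, u i t ^ 2 := Finset.sum_nonneg fun t _ => sq_nonneg _
        simp only [List.mem_cons, List.not_mem_nil, or_false] at ha
        rcases ha with rfl | rfl <;>
        · refine ⟨?_, ?_⟩ <;> simp only [hsum] <;> nlinarith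
    · intro s hs
      rw [val_append] at hs
      have hpair : val [(((fun t => 1 / 4 * u i t), -c / 4) : (T → ℝ) × ℝ),
          ((fun t => -1 / 4 * u i t), -c / 4)] s =
          Real.exp (1 / 4 * (∑ t, s t * u i t) - c / 4) +
          Real.exp (-(1 / 4) * (∑ t, s t * u i t) - c / 4) := by
        simp only [val, List.map_cons, List.map_nil, List.sum_cons, List.sum_nil, add_zero]
        rw [Finset.mul_sum, Finset.mul_sum]
        congr 2
        · have : ∀ t, s t * (1 / 4 * u i t) = 1 / 4 * (s t * u i t) := fun t => by ring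
          rw [Finset.sum_congr rfl fun t _ => this t]; ring
        · have : ∀ t, s t * (-1 / 4 * u i t) = -(1 / 4) * (s t * u i t) := fun t => by ring
          rw [Finset.sum_congr rfl fun t _ => this t]; ring
      rw [hpair] at hs
      have h0 := val_nonneg (A.map (tr c (x i) (u i))) s
      have p1 := Real.exp_pos (1 / 4 * (∑ t, s t * u i t) - c / 4)
      have p2 := Real.exp_pos (-(1 / 4) * (∑ t, s t * u i t) - c / 4)
      have h1 : Real.exp (1 / 4 * (∑ t, s t * u i t) - c / 4) < 1 := by linarith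
      have h2 : Real.exp (-(1 / 4) * (∑ t, s t * u i t) - c / 4) < 1 := by linarith
      rw [Real.exp_lt_one_iff] at h1 h2
      have hsu : |∑ t, s t * u i t| ≤ c := by
        rw [abs_le]; constructor <;> linarith
      have hval := val_avg hc hxi.1 hxi.2 hui hinv hsu
      set p := x i - x i * (1 - x i) * ((∑ t, s t * u i t) / c) with hp
      have hc0 : 0 < c := by linarith
      have hr1 : |(∑ t, s t * u i t) / c| ≤ 1 := by
        rw [abs_div, abs_of_pos hc0, div_le_one hc0]; exact hsu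
      obtain ⟨hr2, hr3⟩ := abs_le.1 hr1
      have hw0 : 0 ≤ x i * (1 - x i) := mul_nonneg hxi.1 (by linarith [hxi.2])
      have hp0 : 0 ≤ p := by nlinarith
      have hp1 : p ≤ 1 := by nlinarith
      have hlt : p * val A (fun t => s t + (1 - x i) * u i t) +
          (1 - p) * val A (fun t => s t + (0 - x i) * u i t) < 1 := by linarith
      have hor : val A (fun t => s t + (1 - x i) * u i t) < 1 ∨
          val A (fun t => s t + (0 - x i) * u i t) < 1 := by
        by_contra hcon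
        push Not at hcon
        nlinarith [hcon.1, hcon.2]
      have fin : ∀ b : ℝ, (b = 0 ∨ b = 1) → val A (fun t => s t + (b - x i) * u i t) < 1 →
          ∃ y : ι → ℝ, (∀ j ∈ insert i F, y j = 0 ∨ y j = 1) ∧
          ∀ t, |s t + ∑ j ∈ insert i F, (y j - x j) * u j t| ≤ c := by
        intro b hb hv
        obtain ⟨y, hy, hyt⟩ := hA _ hv
        refine ⟨Function.update y i b, ?_, fun t => ?_⟩
        · intro j hj
          rcases Finset.mem_insert.1 hj with rfl | hjF
          · rw [Function.update_self]; exact hb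
          · have hne : j ≠ i := fun h => hi (by rw [← h]; exact hjF)
            rw [Function.update_of_ne hne]
            exact hy j hjF
        · rw [Finset.sum_insert hi, Function.update_self]
          have : ∑ j ∈ F, (Function.update y i b j - x j) * u j t =
              ∑ j ∈ F, (y j - x j) * u j t := by
            refine Finset.sum_congr rfl fun j hj => ?_
            have hne : j ≠ i := fun h => hi (by rw [← h]; exact hj)
            rw [Function.update_of_ne hne]
          rw [this, ← add_assoc]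
          exact hyt t
      rcases hor with h | h
      · exact fin 1 (Or.inr rfl) h
      · exact fin 0 (Or.inl rfl) h

/-- **S1** (file `Round.lean`). Derandomised self-balancing rounding. -/
theorem exists_rounding {ι T : Type*} [DecidableEq ι] [Fintype T] [DecidableEq T]
    (F : Finset ι) (x : ι → ℝ) (hx : ∀ i ∈ F, 0 ≤ x i ∧ x i ≤ 1)
    (u : ι → T → ℝ) (hu : ∀ i ∈ F, ∑ t, (u i t) ^ 2 ≤ 1)
    (c : ℝ) (hc : 1 ≤ c)
    (hsmall : 2 * ((F.card : ℝ) + Fintype.card T) * Real.exp (-c / 8) < 1) :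
    ∃ y : ι → ℝ, (∀ i ∈ F, y i = 0 ∨ y i = 1) ∧
      ∀ t, |∑ i ∈ F, (y i - x i) * u i t| ≤ c := by
  obtain ⟨A, hlen, hinv, hA⟩ := claim x u c hc F hx hu
  have h0 : val A (fun _ => 0) < 1 := by
    have h1 : val A (fun _ => 0) ≤ A.length * Real.exp (-c / 8) := by
      rw [val]
      have : (A.length : ℝ) = ((A.map fun a => Real.exp (∑ t, (0 : ℝ) * a.1 t + a.2)).length : ℝ) := by
        simp
      rw [this]
      have h2 := List.sum_le_card_nsmul (A.map fun a => Real.exp (∑ t, (0 : ℝ) * a.1 t + a.2))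
        (Real.exp (-c / 8)) (by
          intro z hz
          obtain ⟨a, ha, rfl⟩ := List.mem_map.1 hz
          apply Real.exp_le_exp.2
          have h3 := (hinv a ha).2
          have h4 : 0 ≤ ∑ t, a.1 t ^ 2 := Finset.sum_nonneg fun t _ => sq_nonneg _
          simp only [zero_mul, Finset.sum_const_zero, zero_add]
          nlinarith)
      rwa [nsmul_eq_mul] at h2
    have h5 : (A.length : ℝ) * Real.exp (-c / 8) ≤
        2 * ((F.card : ℝ) + Fintype.card T) * Real.exp (-c / 8) := by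
      gcongr
    linarith
  obtain ⟨y, hy, hyt⟩ := hA _ h0
  refine ⟨y, hy, fun t => ?_⟩
  simpa using hyt t

end round

end P262
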