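import Mathlib

/-! S3: solving the normal equations on the long coordinates. -/

namespace P262

open scoped BigOperators

theorem exists_tilt {ι κ : Type*} [Fintype κ] [DecidableEq κ]
    (W : Finset ι) (v : ι → κ → ℝ) (Lg : Finset κ) (lam : κ → ℝ) (hlam : ∀ k ∈ Lg, 0 < lam k)
    (hlow : ∀ u : κ → ℝ, (∀ k, k ∉ Lg → u k = 0) →
      (1 / 2) * ∑ k ∈ Lg, lam k * (u k) ^ 2 ≤ ∑ i ∈ W, (∑ k, v i k * u k) ^ 2)
    (c : κ → ℝ) :
    ∃ g : κ → ℝ, (∀ k, k ∉ Lg → g k = 0) ∧
      (∀ k ∈ Lg, ∑ i ∈ W, (∑ l, v i l * g l) * v i k = c k) ∧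
      ∑ k ∈ Lg, lam k * (g k) ^ 2 ≤ 4 * ∑ k ∈ Lg, (c k) ^ 2 / lam k := by
  classical
  -- quadratic form identity
  have hquad : ∀ u : κ → ℝ, (∀ k, k ∉ Lg → u k = 0) →
      ∑ i ∈ W, (∑ k, v i k * u k) ^ 2 =
        ∑ k ∈ Lg, (∑ i ∈ W, (∑ l, v i l * u l) * v i k) * u k := by
    intro u hu
    have h1 : ∀ i, ∑ k, v i k * u k = ∑ k ∈ Lg, v i k * u k := by
      intro i
      refine (Finset.sum_subset (Finset.subset_univ Lg) ?_).symm
      intro k _ hk
      rw [hu k hk, mul_zero]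
    calc ∑ i ∈ W, (∑ k, v i k * u k) ^ 2
        = ∑ i ∈ W, ∑ k ∈ Lg, (∑ l, v i l * u l) * v i k * u k := by
          refine Finset.sum_congr rfl fun i _ => ?_
          rw [sq]
          conv_lhs => rw [h1 i]
          rw [Finset.mul_sum]
          rw [← h1 i]
          exact Finset.sum_congr rfl fun k _ => by ring
      _ = ∑ k ∈ Lg, ∑ i ∈ W, (∑ l, v i l * u l) * v i k * u k := Finset.sum_comm
      _ = _ := by
          refine Finset.sum_congr rfl fun k _ => ?_
          rw [Finset.sum_mul]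
  -- extension map
  let E : (Lg → ℝ) →ₗ[ℝ] (κ → ℝ) :=
    { toFun := fun h k => if hk : k ∈ Lg then h ⟨k, hk⟩ else 0
      map_add' := by
        intro a b; funext k; by_cases hk : k ∈ Lg <;> simp [hk]
      map_smul' := by
        intro a b; funext k; by_cases hk : k ∈ Lg <;> simp [hk] }
  have hE : ∀ h : Lg → ℝ, ∀ k, k ∉ Lg → E h k = 0 := by
    intro h k hk; simp [E, hk]
  have hE' : ∀ h : Lg → ℝ, ∀ k (hk : k ∈ Lg), E h k = h ⟨k, hk⟩ := by
    intro h k hk; simp [E, hk]
  let T : (Lg → ℝ) →ₗ[ℝ] (Lg → ℝ) :=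
    { toFun := fun h k => ∑ i ∈ W, (∑ l, v i l * E h l) * v i k
      map_add' := by
        intro a b; funext k
        simp only [map_add, Pi.add_apply, mul_add, Finset.sum_add_distrib, add_mul]
      map_smul' := by
        intro a b; funext k
        simp only [map_smul, Pi.smul_apply, smul_eq_mul, RingHom.id_apply, Finset.mul_sum,
          Finset.sum_mul]
        exact Finset.sum_congr rfl fun i _ => Finset.sum_congr rfl fun l _ => by ring }
  have hT : ∀ (h : Lg → ℝ) (k : Lg), T h k = ∑ i ∈ W, (∑ l, v i l * E h l) * v i k :=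
    fun _ _ => rfl
  have hinj : Function.Injective T := by
    rw [← LinearMap.ker_eq_bot, LinearMap.ker_eq_bot']
    intro h h0
    have h1 := hlow (E h) (hE h)
    rw [hquad (E h) (hE h)] at h1
    have h2 : ∑ k ∈ Lg, (∑ i ∈ W, (∑ l, v i l * E h l) * v i k) * E h k = 0 := by
      refine Finset.sum_eq_zero fun k hk => ?_
      have := congrFun h0 ⟨k, hk⟩
      rw [hT] at this
      simp only at this
      rw [this]; simp
    rw [h2] at h1
    have h3 : ∑ k ∈ Lg, lam k * (E h k) ^ 2 ≤ 0 := by linarith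
    have h4 : ∀ k ∈ Lg, 0 ≤ lam k * (E h k) ^ 2 := fun k hk =>
      mul_nonneg (hlam k hk).le (sq_nonneg _)
    have h5 := (Finset.sum_eq_zero_iff_of_nonneg h4).1 (le_antisymm h3 (Finset.sum_nonneg h4))
    funext k
    have h6 := h5 k.1 k.2
    rw [hE' h k.1 k.2] at h6
    have h7 := (hlam k.1 k.2).ne'
    simpa [h7] using h6
  have hsurj : Function.Surjective T := LinearMap.injective_iff_surjective.1 hinj
  obtain ⟨h, hh⟩ := hsurj (fun k => c k)
  refine ⟨E h, hE h, ?_, ?_⟩
  · intro k hk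
    have := congrFun hh ⟨k, hk⟩
    rw [hT] at this
    exact this
  · have h1 := hlow (E h) (hE h)
    rw [hquad (E h) (hE h)] at h1
    have h2 : ∑ k ∈ Lg, (∑ i ∈ W, (∑ l, v i l * E h l) * v i k) * E h k =
        ∑ k ∈ Lg, c k * E h k := by
      refine Finset.sum_congr rfl fun k hk => ?_
      have := congrFun hh ⟨k, hk⟩
      rw [hT] at this
      simp only at this
      rw [this]
    rw [h2] at h1
    -- pointwise: c g ≤ lam g^2 / 4 + c^2/lam
    have h3 : ∑ k ∈ Lg, c k * E h k ≤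
        (1 / 4) * ∑ k ∈ Lg, lam k * (E h k) ^ 2 + ∑ k ∈ Lg, (c k) ^ 2 / lam k := by
      rw [Finset.mul_sum, ← Finset.sum_add_distrib]
      refine Finset.sum_le_sum fun k hk => ?_
      have hl := hlam k hk
      have : 0 ≤ (lam k * E h k / 2 - c k) ^ 2 / lam k := by positivity
      have e : (lam k * E h k / 2 - c k) ^ 2 / lam k =
          (1 / 4) * (lam k * (E h k) ^ 2) + (c k) ^ 2 / lam k - c k * E h k := by
        field_simp
        ring
      linarith
    linarith

end P262
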