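import Mathlib

namespace P262

open scoped BigOperators

theorem exists_vertex {ι C : Type*} [DecidableEq ι] [Fintype C]
    (W : Finset ι) (x : ι → ℝ) (hx : ∀ i ∈ W, 0 ≤ x i ∧ x i ≤ 1) (f : ι → C → ℝ) :
    ∃ z : ι → ℝ, (∀ i ∈ W, 0 ≤ z i ∧ z i ≤ 1) ∧
      (∀ c, ∑ i ∈ W, z i * f i c = ∑ i ∈ W, x i * f i c) ∧
      (W.filter (fun i => z i ≠ 0 ∧ z i ≠ 1)).card ≤ Fintype.card C := by
  classical
  -- induction on the number of fractional coordinates
  suffices H : ∀ (n : ℕ) (x : ι → ℝ), (∀ i ∈ W, 0 ≤ x i ∧ x i ≤ 1) →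
      (W.filter (fun i => x i ≠ 0 ∧ x i ≠ 1)).card ≤ n →
      ∃ z : ι → ℝ, (∀ i ∈ W, 0 ≤ z i ∧ z i ≤ 1) ∧
      (∀ c, ∑ i ∈ W, z i * f i c = ∑ i ∈ W, x i * f i c) ∧
      (W.filter (fun i => z i ≠ 0 ∧ z i ≠ 1)).card ≤ Fintype.card C from H _ x hx le_rfl
  intro n
  induction n with
  | zero => exact fun x hx hc => ⟨x, hx, fun _ => rfl, hc.trans (Nat.zero_le _)⟩
  | succ n ih =>
    intro x hx hc
    by_cases hle : (W.filter (fun i => x i ≠ 0 ∧ x i ≠ 1)).card ≤ Fintype.card C
    · exact ⟨x, hx, fun _ => rfl, hle⟩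
    push Not at hle
    set Fr := W.filter (fun i => x i ≠ 0 ∧ x i ≠ 1) with hFr
    -- kernel vector
    let A : ({i // i ∈ Fr} → ℝ) →ₗ[ℝ] (C → ℝ) :=
      Matrix.mulVecLin (Matrix.of fun (c : C) (i : {i // i ∈ Fr}) => f i c)
    have hker : LinearMap.ker A ≠ ⊥ := by
      apply LinearMap.ker_ne_bot_of_finrank_lt
      simp only [Module.finrank_fintype_fun_eq_card, Fintype.card_coe]
      exact hle
    obtain ⟨w0, hw0, hw0ne⟩ := (Submodule.ne_bot_iff _).1 hker
    set w : ι → ℝ := fun i => if h : i ∈ Fr then w0 ⟨i, h⟩ else 0 with hw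
    have hwF : ∀ i, i ∉ Fr → w i = 0 := fun i hi => by simp only [hw, dif_neg hi]
    have hFrW : Fr ⊆ W := Finset.filter_subset _ _
    have hsum : ∀ c, ∑ i ∈ W, w i * f i c = 0 := by
      intro c
      have h1 : ∑ i ∈ W, w i * f i c = ∑ i ∈ Fr, w i * f i c := by
        symm
        apply Finset.sum_subset hFrW
        intro i _ hi
        rw [hwF i hi]; ring
      rw [h1, ← Finset.sum_coe_sort]
      have h2 := congrFun (LinearMap.mem_ker.1 hw0) c
      simp only [A, Matrix.mulVecLin_apply, Matrix.mulVec, dotProduct, Matrix.of_apply,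
        Pi.zero_apply] at h2
      rw [← h2]
      refine Finset.sum_congr rfl fun i _ => ?_
      have : w (i : ι) = w0 i := by simp only [hw, dif_pos i.2]
      rw [this]; ring
    obtain ⟨j0, hj0⟩ : ∃ j, w j ≠ 0 := by
      by_contra hcon
      push Not at hcon
      apply hw0ne
      ext i
      have := hcon i
      simp only [hw, dif_pos i.2] at this
      exact this
    -- step sizes
    set P := Fr.filter (fun i => w i ≠ 0) with hP
    have hPne : P.Nonempty := by
      refine ⟨j0, ?_⟩
      rw [hP, Finset.mem_filter]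
      refine ⟨?_, hj0⟩
      by_contra h; exact hj0 (hwF _ h)
    set τ : ι → ℝ := fun i => if 0 < w i then (1 - x i) / w i else x i / (-w i) with hτ
    obtain ⟨i0, hi0, hmin⟩ := Finset.exists_min_image P τ hPne
    have hPfr : ∀ i ∈ P, (0 < x i ∧ x i < 1) ∧ w i ≠ 0 ∧ i ∈ W := by
      intro i hi
      rw [hP, Finset.mem_filter, hFr, Finset.mem_filter] at hi
      have h1 := hx i hi.1.1
      exact ⟨⟨lt_of_le_of_ne h1.1 (Ne.symm hi.1.2.1), lt_of_le_of_ne h1.2 hi.1.2.2⟩, hi.2, hi.1.1⟩
    have hτpos : ∀ i ∈ P, 0 < τ i := by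
      intro i hi
      obtain ⟨⟨h1, h2⟩, h3, _⟩ := hPfr i hi
      simp only [hτ]
      split_ifs with h
      · exact div_pos (by linarith) h
      · exact div_pos h1 (by
          have : w i < 0 := lt_of_le_of_ne (not_lt.1 h) h3
          linarith)
    set t := τ i0 with ht
    have htpos : 0 < t := hτpos i0 hi0
    set z : ι → ℝ := fun i => x i + t * w i with hz
    have hz01 : ∀ i ∈ W, 0 ≤ z i ∧ z i ≤ 1 := by
      intro i hi
      by_cases hwi : w i = 0
      · simp only [hz, hwi, mul_zero, add_zero]; exact hx i hi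
      · have hiP : i ∈ P := by
          rw [hP, Finset.mem_filter]
          refine ⟨?_, hwi⟩
          by_contra h; exact hwi (hwF _ h)
        have hle2 := hmin i hiP
        obtain ⟨⟨h1, h2⟩, h3, _⟩ := hPfr i hiP
        rcases lt_or_gt_of_ne hwi with hneg | hpos
        · have e : τ i = x i / (-w i) := by
            simp only [hτ]; rw [if_neg (not_lt.2 hneg.le)]
          rw [e, le_div_iff₀ (by linarith)] at hle2
          simp only [hz]
          constructor
          · linarith
          · have : t * w i < 0 := mul_neg_of_pos_of_neg htpos hneg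
            linarith
        · have e : τ i = (1 - x i) / w i := by
            simp only [hτ]; rw [if_pos hpos]
          rw [e, le_div_iff₀ hpos] at hle2
          simp only [hz]
          constructor
          · have : 0 < t * w i := mul_pos htpos hpos
            linarith
          · linarith
    have hi0z : z i0 = 0 ∨ z i0 = 1 := by
      obtain ⟨_, h3, _⟩ := hPfr i0 hi0
      rcases lt_or_gt_of_ne h3 with hneg | hpos
      · left
        have e : t = x i0 / (-w i0) := by
          rw [ht]; simp only [hτ]; rw [if_neg (not_lt.2 hneg.le)]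
        simp only [hz]
        rw [e]; field_simp; ring
      · right
        have e : t = (1 - x i0) / w i0 := by
          rw [ht]; simp only [hτ]; rw [if_pos hpos]
        simp only [hz]
        rw [e]; field_simp; ring
    have hsub : W.filter (fun i => z i ≠ 0 ∧ z i ≠ 1) ⊆ Fr.erase i0 := by
      intro i hi
      rw [Finset.mem_filter] at hi
      rw [Finset.mem_erase]
      constructor
      · intro h
        subst h
        rcases hi0z with h | h
        · exact hi.2.1 h
        · exact hi.2.2 h
      · by_contra hiF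
        have h1 : z i = x i := by simp only [hz]; rw [hwF i hiF]; ring
        rw [h1] at hi
        exact hiF (by rw [hFr, Finset.mem_filter]; exact hi)
    have hi0F : i0 ∈ Fr := by
      rw [hP, Finset.mem_filter] at hi0; exact hi0.1
    have hcard : (W.filter (fun i => z i ≠ 0 ∧ z i ≠ 1)).card ≤ n := by
      have h1 := Finset.card_le_card hsub
      rw [Finset.card_erase_of_mem hi0F] at h1
      omega
    obtain ⟨y, hy1, hy2, hy3⟩ := ih z hz01 hcard
    refine ⟨y, hy1, fun c => ?_, hy3⟩
    rw [hy2 c]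
    have : ∑ i ∈ W, z i * f i c = ∑ i ∈ W, x i * f i c + t * ∑ i ∈ W, w i * f i c := by
      rw [Finset.mul_sum, ← Finset.sum_add_distrib]
      refine Finset.sum_congr rfl fun i _ => ?_
      simp only [hz]; ring
    rw [this, hsum c]; ring

end P262
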