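import Vale.Agent.P262.Defs
import Vale.Agent.P262.Round
import Vale.Agent.P262.Tilt
import Vale.Agent.P262.Vertex

/-! P262: heavy count and the tilt. -/

namespace P262

open Finset

variable {d : ℕ} {ι : Type} [DecidableEq ι]

/-- heavy criterion inside the light set `W` -/
def Hv (M : ℕ) (v : ι → Fin d → ℝ) (W : Finset ι) (i : ι) : Prop :=
  (∃ k, ∑ j ∈ W, (v j k) ^ 2 < M * (v i k) ^ 2) ∨ W.card < M

lemma card_coord_heavy (M : ℕ) (v : ι → ℝ) (W : Finset ι) :
    (W.filter (fun i => ∑ j ∈ W, (v j) ^ 2 < M * (v i) ^ 2)).card ≤ M := by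
  by_contra hcon
  push Not at hcon
  set A := W.filter (fun i => ∑ j ∈ W, (v j) ^ 2 < M * (v i) ^ 2) with hA
  set V := ∑ j ∈ W, (v j) ^ 2 with hV
  have hne : A.Nonempty := by
    rw [← Finset.card_pos]; omega
  have hV0 : 0 ≤ V := Finset.sum_nonneg fun _ _ => by positivity
  have h1 : (A.card : ℝ) * V < M * V ∨ (A.card : ℝ) * V ≤ M * V := by
    right
    calc (A.card : ℝ) * V = ∑ i ∈ A, V := by rw [Finset.sum_const, nsmul_eq_mul]
      _ ≤ ∑ i ∈ A, M * (v i) ^ 2 := Finset.sum_le_sum fun i hi => le_of_lt (Finset.mem_filter.1 hi).2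
      _ = M * ∑ i ∈ A, (v i) ^ 2 := by rw [Finset.mul_sum]
      _ ≤ M * V := by
          apply mul_le_mul_of_nonneg_left _ (Nat.cast_nonneg _)
          exact Finset.sum_le_sum_of_subset_of_nonneg (Finset.filter_subset _ _)
            (fun _ _ _ => by positivity)
  have h2 : (A.card : ℝ) * V ≤ M * V := by
    rcases h1 with h | h
    · exact h.le
    · exact h
  have h3 : (M : ℝ) + 1 ≤ A.card := by exact_mod_cast hcon
  have hV1 : V = 0 := by nlinarith
  obtain ⟨i, hi⟩ := hne
  have hi' := (Finset.mem_filter.1 hi)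
  have h4 : (v i) ^ 2 ≤ V :=
    Finset.single_le_sum (f := fun j => (v j) ^ 2) (fun _ _ => by positivity) hi'.1
  have h5 : V < M * (v i) ^ 2 := hi'.2
  rw [hV1] at h4 h5
  have h6 : (v i) ^ 2 = 0 := le_antisymm h4 (by positivity)
  rw [h6] at h5
  simp at h5

open Classical in
lemma heavy_count (M : ℕ) (v : ι → Fin d → ℝ) (W : Finset ι) :
    (W.filter (fun i => Hv M v W i)).card ≤ M * (d + 1) := by
  by_cases hc : W.card < M
  · calc (W.filter (fun i => Hv M v W i)).card ≤ W.card := Finset.card_filter_le _ _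
      _ ≤ M := hc.le
      _ ≤ M * (d + 1) := Nat.le_mul_of_pos_right _ (Nat.succ_pos _)
  · have hsub : W.filter (fun i => Hv M v W i) ⊆
        Finset.univ.biUnion (fun k : Fin d =>
          W.filter (fun i => ∑ j ∈ W, (v j k) ^ 2 < M * (v i k) ^ 2)) := by
      intro i hi
      rw [Finset.mem_filter] at hi
      rcases hi.2 with ⟨k, hk⟩ | h
      · exact Finset.mem_biUnion.2 ⟨k, Finset.mem_univ _, Finset.mem_filter.2 ⟨hi.1, hk⟩⟩
      · exact absurd h hc
    calc (W.filter (fun i => Hv M v W i)).card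
        ≤ _ := Finset.card_le_card hsub
      _ ≤ ∑ k : Fin d, (W.filter (fun i => ∑ j ∈ W, (v j k) ^ 2 < M * (v i k) ^ 2)).card :=
          Finset.card_biUnion_le
      _ ≤ ∑ k : Fin d, M := Finset.sum_le_sum fun k _ => card_coord_heavy M (fun i => v i k) W
      _ = d * M := by simp
      _ ≤ M * (d + 1) := by nlinarith

end P262
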