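import Vale.Agent.P262.StepD

/-! P262: construction of the signs of a node. -/

set_option linter.unusedSectionVars false

namespace P262

open Finset
open scoped Classical

variable {d : ℕ} {ι : Type}

lemma vertex_data (A : Finset ι) (v : ι → Fin d → ℝ) (x : ι → ℝ)
    (hx : ∀ i ∈ A, 0 ≤ x i ∧ x i ≤ 1) :
    ∃ z : ι → ℝ, (∀ i ∈ A, 0 ≤ z i ∧ z i ≤ 1) ∧
      (A.filter (fun i => z i ≠ 0 ∧ z i ≠ 1)).card ≤ d ^ 2 + d + 1 ∧
      (∀ k, ∑ i ∈ A, z i * v i k = ∑ i ∈ A, x i * v i k) ∧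
      (∀ u : Fin d → ℝ, ∑ i ∈ A, z i * (∑ k, v i k * u k) ^ 2 =
        ∑ i ∈ A, x i * (∑ k, v i k * u k) ^ 2) ∧
      ∑ i ∈ A, z i = ∑ i ∈ A, x i := by
  obtain ⟨z, hz1, hz2, hz3⟩ := exists_vertex (C := Fin d ⊕ (Fin d × Fin d) ⊕ Unit) A x hx
    (fun i => Sum.elim (fun k => v i k) (Sum.elim (fun p => v i p.1 * v i p.2) (fun _ => 1)))
  refine ⟨z, hz1, ?_, ?_, ?_, ?_⟩
  · refine hz3.trans (le_of_eq ?_)
    simp [Fintype.card_sum]
    ring
  · intro k
    have := hz2 (Sum.inl k)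
    simpa using this
  · intro u
    have key : ∀ w : ι → ℝ, ∑ i ∈ A, w i * (∑ k, v i k * u k) ^ 2 =
        ∑ p : Fin d × Fin d, (u p.1 * u p.2) * ∑ i ∈ A, w i * (v i p.1 * v i p.2) := by
      intro w
      calc ∑ i ∈ A, w i * (∑ k, v i k * u k) ^ 2
          = ∑ i ∈ A, ∑ p : Fin d × Fin d, (u p.1 * u p.2) * (w i * (v i p.1 * v i p.2)) := by
            refine Finset.sum_congr rfl fun i _ => ?_
            rw [sq, Finset.sum_mul_sum, ← Finset.univ_product_univ, Finset.sum_product,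
              Finset.mul_sum]
            refine Finset.sum_congr rfl fun j _ => ?_
            rw [Finset.mul_sum]
            exact Finset.sum_congr rfl fun k _ => by ring
        _ = _ := by
            rw [Finset.sum_comm]
            exact Finset.sum_congr rfl fun p _ => by rw [Finset.mul_sum]
    rw [key z, key x]
    refine Finset.sum_congr rfl fun p _ => ?_
    have := hz2 (Sum.inr (Sum.inl p))
    simp only [Sum.elim_inr, Sum.elim_inl] at this
    rw [this]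
  · have := hz2 (Sum.inr (Sum.inr ()))
    simpa using this

lemma round_data (P : Par d) (G : P.Good) (F : Finset ι) (X : ι → ℝ)
    (hX : ∀ i ∈ F, 0 ≤ X i ∧ X i ≤ 1) (v : ι → Fin d → ℝ) (hv : ∀ i, ∑ k, (v i k) ^ 2 ≤ 1)
    (ag : ι → ℕ) (hF : (F.card : ℝ) ≤ P.nF) :
    ∃ y : ι → ℝ, (∀ i ∈ F, y i = 0 ∨ y i = 1) ∧
      (∀ k, |∑ i ∈ F, (y i - X i) * v i k| ≤ P.b1) ∧
      (∀ j, 1 ≤ j → j ≤ P.K + 1 →
        |∑ i ∈ F.filter (fun i => ag i = j), (y i - X i)| ≤ P.b1) := by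
  obtain ⟨y, hy1, hy2⟩ := exists_rounding (T := Fin d ⊕ Fin (P.K + 1)) F X hX
    (fun i => Sum.elim (fun k => v i k / 2) (fun j => (if ag i = (j : ℕ) + 1 then 1 else 0) / 2))
    (by
      intro i _
      rw [Fintype.sum_sum_type]
      simp only [Sum.elim_inl, Sum.elim_inr]
      have h1 : ∑ k, (v i k / 2) ^ 2 ≤ 1 / 4 := by
        have : ∑ k, (v i k / 2) ^ 2 = (1 / 4) * ∑ k, (v i k) ^ 2 := by
          rw [Finset.mul_sum]; exact Finset.sum_congr rfl fun k _ => by ring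
        rw [this]; linarith [hv i]
      have h2 : ∑ j : Fin (P.K + 1), (((if ag i = (j : ℕ) + 1 then (1:ℝ) else 0)) / 2) ^ 2 ≤
          1 / 4 := by
        by_cases hj : ∃ j : Fin (P.K + 1), ag i = (j : ℕ) + 1
        · obtain ⟨j, hj⟩ := hj
          rw [Finset.sum_eq_single j]
          · rw [if_pos hj]; norm_num
          · intro b _ hb
            rw [if_neg]
            · norm_num
            · intro h
              apply hb
              apply Fin.ext
              omega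
          · intro h; exact absurd (Finset.mem_univ j) h
        · have : ∀ j : Fin (P.K + 1), (((if ag i = (j : ℕ) + 1 then (1:ℝ) else 0)) / 2) ^ 2 = 0 := by
            intro j
            rw [if_neg (fun h => hj ⟨j, h⟩)]; norm_num
          rw [Finset.sum_eq_zero fun j _ => this j]; norm_num
      linarith)
    P.c P.hc (by
      refine lt_of_le_of_lt ?_ G.hsm
      apply mul_le_mul_of_nonneg_right _ (Real.exp_pos _).le
      have e : ((Fintype.card (Fin d ⊕ Fin (P.K + 1)) : ℕ) : ℝ) = (d : ℝ) + (P.K + 1) := by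
        simp [Fintype.card_sum]
      rw [e]
      linarith)
  refine ⟨y, hy1, ?_, ?_⟩
  · intro k
    have h := hy2 (Sum.inl k)
    simp only [Sum.elim_inl] at h
    have e : ∑ i ∈ F, (y i - X i) * (v i k / 2) = (1 / 2) * ∑ i ∈ F, (y i - X i) * v i k := by
      rw [Finset.mul_sum]; exact Finset.sum_congr rfl fun i _ => by ring
    rw [e, abs_mul, abs_of_pos (by norm_num : (0:ℝ) < 1 / 2)] at h
    unfold Par.b1; linarith
  · intro j hj1 hj2
    have h := hy2 (Sum.inr ⟨j - 1, by omega⟩)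
    simp only [Sum.elim_inr] at h
    have ej : j - 1 + 1 = j := by omega
    rw [ej] at h
    have e : ∑ i ∈ F, (y i - X i) * ((if ag i = j then (1:ℝ) else 0) / 2) =
        (1 / 2) * ∑ i ∈ F.filter (fun i => ag i = j), (y i - X i) := by
      rw [Finset.sum_filter, Finset.mul_sum]
      refine Finset.sum_congr rfl fun i _ => ?_
      split_ifs <;> ring
    rw [e, abs_mul, abs_of_pos (by norm_num : (0:ℝ) < 1 / 2)] at h
    unfold Par.b1; linarith

lemma half_data (A Fr : Finset ι) (hFr : Fr ⊆ A) (x z χ φ : ι → ℝ) (ε : ℝ)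
    (hφ : ∀ i ∈ A, 0 ≤ φ i) (hx : ∀ i ∈ A, |x i - 1 / 2| ≤ ε)
    (hz : ∀ i ∈ A, 0 ≤ z i ∧ z i ≤ 1) (hχ : ∀ i ∈ Fr, χ i = 0 ∨ χ i = 1)
    (hχz : ∀ i ∈ A, i ∉ Fr → χ i = z i)
    (he : ∑ i ∈ A, z i * φ i = ∑ i ∈ A, x i * φ i) :
    |∑ i ∈ A, χ i * φ i - (1 / 2) * ∑ i ∈ A, φ i| ≤ ε * ∑ i ∈ A, φ i + ∑ i ∈ Fr, φ i := by
  have h1 : ∑ i ∈ A, χ i * φ i = ∑ i ∈ A, z i * φ i + ∑ i ∈ Fr, (χ i - z i) * φ i := by
    have h0 : ∑ i ∈ Fr, (χ i - z i) * φ i = ∑ i ∈ A, (χ i - z i) * φ i := by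
      apply Finset.sum_subset hFr
      intro i hi hi2
      rw [hχz i hi hi2]; ring
    rw [h0, ← Finset.sum_add_distrib]
    exact Finset.sum_congr rfl fun i _ => by ring
  have h2 : ∑ i ∈ A, x i * φ i - (1 / 2) * ∑ i ∈ A, φ i = ∑ i ∈ A, (x i - 1 / 2) * φ i := by
    rw [Finset.mul_sum, ← Finset.sum_sub_distrib]
    exact Finset.sum_congr rfl fun i _ => by ring
  have h3 : |∑ i ∈ A, (x i - 1 / 2) * φ i| ≤ ε * ∑ i ∈ A, φ i := by
    rw [Finset.mul_sum]
    refine (Finset.abs_sum_le_sum_abs _ _).trans (Finset.sum_le_sum fun i hi => ?_)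
    rw [abs_mul, abs_of_nonneg (hφ i hi)]
    exact mul_le_mul_of_nonneg_right (hx i hi) (hφ i hi)
  have h4 : |∑ i ∈ Fr, (χ i - z i) * φ i| ≤ ∑ i ∈ Fr, φ i := by
    refine (Finset.abs_sum_le_sum_abs _ _).trans (Finset.sum_le_sum fun i hi => ?_)
    rw [abs_mul, abs_of_nonneg (hφ i (hFr hi))]
    have h5 : |χ i - z i| ≤ 1 := by
      have := hz i (hFr hi)
      rw [abs_le]
      rcases hχ i hi with h | h <;> rw [h] <;> constructor <;> linarith
    calc _ ≤ 1 * φ i := mul_le_mul_of_nonneg_right h5 (hφ i (hFr hi))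
      _ = φ i := one_mul _
  have h6 : ∑ i ∈ A, χ i * φ i - (1 / 2) * ∑ i ∈ A, φ i =
      ∑ i ∈ A, (x i - 1 / 2) * φ i + ∑ i ∈ Fr, (χ i - z i) * φ i := by
    rw [h1, he, ← h2]; ring
  rw [h6]
  exact (abs_add_le _ _).trans (add_le_add h3 h4)

/-- number of old heavy vectors -/
lemma old_card (P : Par d) (v : ι → Fin d → ℝ) (lam : Fin d → ℝ) (lv : Fin d → ℕ)
    (l : ℕ) (S : Finset ι) (age : ι → ℕ) (I : InvS P v lam lv l S age) :
    ((S.filter (fun i => 1 ≤ age i ∧ age i ≤ P.K)).card : ℝ) ≤ P.h + 2 * P.b1 * P.K := by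
  have hb1 := P.b1_ge
  have key : ∀ n : ℕ, n ≤ P.K → ((S.filter (fun i => 1 ≤ age i ∧ age i ≤ n)).card : ℝ) ≤
      P.h * (1 - 1 / 2 ^ n) + 2 * P.b1 * n := by
    intro n
    induction n with
    | zero =>
      intro _
      have : S.filter (fun i => 1 ≤ age i ∧ age i ≤ 0) = ∅ := by
        apply Finset.filter_eq_empty_iff.2
        intro i _; omega
      rw [this]; simp
    | succ n ih =>
      intro hn
      have ih' := ih (by omega)
      have h1 : S.filter (fun i => 1 ≤ age i ∧ age i ≤ n + 1) ⊆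
          S.filter (fun i => 1 ≤ age i ∧ age i ≤ n) ∪ S.filter (fun i => age i = n + 1) := by
        intro i hi
        rw [Finset.mem_filter] at hi
        rw [Finset.mem_union, Finset.mem_filter, Finset.mem_filter]
        by_cases h : age i = n + 1
        · right; exact ⟨hi.1, h⟩
        · left; exact ⟨hi.1, hi.2.1, by omega⟩
      have h2 : ((S.filter (fun i => 1 ≤ age i ∧ age i ≤ n + 1)).card : ℝ) ≤
          ((S.filter (fun i => 1 ≤ age i ∧ age i ≤ n)).card : ℝ) +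
            ((S.filter (fun i => age i = n + 1)).card : ℝ) := by
        exact_mod_cast (Finset.card_le_card h1).trans (Finset.card_union_le _ _)
      have h3 := I.cls (n + 1) (by omega) (by omega)
      have h4 : (P.h : ℝ) * (1 - 1 / 2 ^ (n + 1)) = P.h * (1 - 1 / 2 ^ n) + P.h / 2 ^ (n + 1) := by
        rw [pow_succ]; field_simp; ring
      rw [h4]
      push_cast
      linarith
  have h1 := key P.K le_rfl
  have h2 : (P.h : ℝ) * (1 - 1 / 2 ^ P.K) ≤ P.h := by
    have h3 : (0:ℝ) ≤ 1 / 2 ^ P.K := by positivity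
    have h4 : (0:ℝ) ≤ P.h := Nat.cast_nonneg _
    nlinarith
  linarith

lemma top_card (P : Par d) (G : P.Good) (v : ι → Fin d → ℝ) (lam : Fin d → ℝ) (lv : Fin d → ℕ)
    (l : ℕ) (S : Finset ι) (age : ι → ℕ) (I : InvS P v lam lv l S age) :
    ((S.filter (fun i => age i = P.K + 1)).card : ℝ) ≤ 1 / 2 + 2 * P.b1 := by
  have h1 := I.cls (P.K + 1) (by omega) le_rfl
  have h2 : (P.h : ℝ) / 2 ^ (P.K + 1) ≤ 1 / 2 := by
    rw [div_le_iff₀ (by positivity), pow_succ]
    have : (P.h : ℝ) ≤ 2 ^ P.K := by exact_mod_cast G.hK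
    linarith
  linarith

lemma item_small (P : Par d) (G : P.Good) (v : ι → Fin d → ℝ) (lam : Fin d → ℝ) (lv : Fin d → ℕ)
    (l : ℕ) (S : Finset ι) (age : ι → ℕ) (I : InvS P v lam lv l S age) (k : Fin d)
    (hk : lv k + (P.K + 1) ≤ l) (i : ι) (hi : i ∈ S) :
    (v i k) ^ 2 ≤ 2 * P.Lam * (3 / 5 : ℝ) ^ (l - lv k - (P.K + 1)) := by
  have hL := G.hL0
  have hmono : ∀ a b : ℕ, b ≤ a → 2 * P.Lam * (3 / 5 : ℝ) ^ a ≤ 2 * P.Lam * (3 / 5 : ℝ) ^ b := by
    intro a b hab
    apply mul_le_mul_of_nonneg_left _ (by positivity)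
    exact pow_le_pow_of_le_one (by norm_num) (by norm_num) hab
  by_cases h0 : age i = 0
  · have h1 := I.short k (by omega)
    have h2 : (v i k) ^ 2 ≤ ∑ j ∈ S.filter (fun i => age i = 0), (v j k) ^ 2 :=
      Finset.single_le_sum (f := fun j => (v j k) ^ 2) (fun _ _ => sq_nonneg _)
        (Finset.mem_filter.2 ⟨hi, h0⟩)
    exact h2.trans (h1.trans (hmono _ _ (by omega)))
  · have h3 := I.age_le i hi
    have h1 := I.heavy i hi (by omega) k (by omega)
    exact h1.trans (hmono _ _ (by omega))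

end P262
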