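import Vale.Agent.P262.StepE

/-! P262: construction of the signs of a node. -/

set_option linter.unusedSectionVars false

namespace P262

open Finset
open scoped Classical

variable {d : ℕ} {ι : Type}

lemma sub_quad (P : Par d) (lam : Fin d → ℝ) (lv : Fin d → ℕ)
    (v : ι → Fin d → ℝ) (hv : ∀ i, ∑ k, (v i k) ^ 2 ≤ 1) (l : ℕ) (S : Finset ι) (age : ι → ℕ)
    (I : InvS P v lam lv l S age)
    (W W' : Finset ι) (hW : W = S.filter (fun i => age i = 0))
    (hW' : W' = W.filter (fun i => ¬ Hv (20 * P.m) v W i)) (u : Fin d → ℝ) :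
    |∑ i ∈ W', (∑ k, v i k * u k) ^ 2 - ∑ k, lam k / 2 ^ l * (u k) ^ 2| ≤
        dl P lam l * ∑ k, lam k / 2 ^ l * (u k) ^ 2 + P.C1 * ∑ k, (u k) ^ 2 := by
  have h2 := I.close u
  rw [← hW] at h2
  have hsplit : ∑ i ∈ W, (∑ k, v i k * u k) ^ 2 =
      ∑ i ∈ W.filter (fun i => Hv (20 * P.m) v W i), (∑ k, v i k * u k) ^ 2 +
      ∑ i ∈ W', (∑ k, v i k * u k) ^ 2 := by
    rw [hW']; exact (Finset.sum_filter_add_sum_filter_not _ _ _).symm
  have h3 := sum_quad_le _ v hv _ (hv_card P v W) u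
  have h4 : 0 ≤ ∑ i ∈ W.filter (fun i => Hv (20 * P.m) v W i), (∑ k, v i k * u k) ^ 2 :=
    Finset.sum_nonneg fun _ _ => sq_nonneg _
  rw [hsplit] at h2
  have hN : 0 ≤ ∑ k, (u k) ^ 2 := Finset.sum_nonneg fun _ _ => sq_nonneg _
  have e : P.C1 * ∑ k, (u k) ^ 2 = P.CQ * ∑ k, (u k) ^ 2 + P.h * ∑ k, (u k) ^ 2 := by
    unfold Par.C1; ring
  rw [e]
  have h5 := abs_le.1 h2
  have h6 : 0 ≤ (P.h : ℝ) * ∑ k, (u k) ^ 2 := mul_nonneg (Nat.cast_nonneg _) hN
  rw [abs_le]
  constructor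
  · linarith [h5.1]
  · linarith [h5.2]

lemma SideD.compl {P : Par d} {lam : Fin d → ℝ} {lv : Fin d → ℕ}
    {v : ι → Fin d → ℝ} {l : ℕ} {S : Finset ι} {age : ι → ℕ}
    {W W' Fr T0 : Finset ι} {χ : ι → ℝ} (D : SideD P lam lv v l S age W W' Fr T0 χ) :
    SideD P lam lv v l S age W W' Fr T0 (fun i => 1 - χ i) where
  hW := D.hW
  hW' := D.hW'
  hT0 := D.hT0
  hFr := D.hFr
  hFrc := D.hFrc
  hχ := by
    intro i hi
    rcases D.hχ i hi with h | h
    · right; rw [h]; ring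
    · left; rw [h]; ring
  hq := by
    intro u
    have h := D.hq u
    have e : ∑ i ∈ W', (1 - χ i) * (∑ k, v i k * u k) ^ 2
        - (1 / 2) * ∑ i ∈ W', (∑ k, v i k * u k) ^ 2 =
        -(∑ i ∈ W', χ i * (∑ k, v i k * u k) ^ 2
        - (1 / 2) * ∑ i ∈ W', (∑ k, v i k * u k) ^ 2) := by
      have : ∑ i ∈ W', (1 - χ i) * (∑ k, v i k * u k) ^ 2 =
          ∑ i ∈ W', (∑ k, v i k * u k) ^ 2 - ∑ i ∈ W', χ i * (∑ k, v i k * u k) ^ 2 := by
        rw [← Finset.sum_sub_distrib]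
        exact Finset.sum_congr rfl fun i _ => by ring
      rw [this]; ring
    rw [e, abs_neg]
    exact h
  hcls := by
    intro j h1 h2
    have h := D.hcls j h1 h2
    have e : ∑ i ∈ T0.filter (fun i => nage P v W age i = j), (1 - χ i)
        - (1 / 2) * ((T0.filter (fun i => nage P v W age i = j)).card : ℝ) =
        -(∑ i ∈ T0.filter (fun i => nage P v W age i = j), χ i
        - (1 / 2) * ((T0.filter (fun i => nage P v W age i = j)).card : ℝ)) := by
      rw [Finset.sum_sub_distrib, Finset.sum_const, nsmul_eq_mul]; ring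
    rw [e, abs_neg]
    exact h

theorem exists_chi (P : Par d) (G : P.Good) (lam : Fin d → ℝ) (lv : Fin d → ℕ)
    (hlv : ∀ l k, l < lv k ↔ P.Lam ≤ lam k / 2 ^ l) (hlam : ∀ k, 0 ≤ lam k)
    (v : ι → Fin d → ℝ) (hv : ∀ i, ∑ k, (v i k) ^ 2 ≤ 1) (l : ℕ) (S : Finset ι) (age : ι → ℕ)
    (I : InvS P v lam lv l S age)
    (W W' T0 : Finset ι) (hW : W = S.filter (fun i => age i = 0))
    (hW' : W' = W.filter (fun i => ¬ Hv (20 * P.m) v W i))
    (hT0 : T0 = S.filter (fun i => age i ≤ P.K))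
    (c : Fin d → ℝ) (hc : ∀ k, l < lv k → |c k| ≤ P.b0) :
    ∃ (Fr : Finset ι) (χ : ι → ℝ) (T E : Fin d → ℝ),
      SideD P lam lv v l S age W W' Fr T0 χ ∧
      (∀ k, ∑ i ∈ T0, χ i * v i k = (1 / 2) * ∑ i ∈ T0, v i k + T k + E k) ∧
      (∀ k, l < lv k → T k = c k) ∧
      (∀ k, lv k ≤ l → |T k| ≤ 1) ∧
      (∀ k, lv k ≤ l → (T k) ^ 2 ≤ ∑ i ∈ W', (v i k) ^ 2) ∧
      (∀ k, |E k| ≤ P.b1) ∧
      (∀ k s, 0 ≤ s → (∀ i ∈ S, |v i k| ≤ s) → |E k| ≤ P.nF * s) ∧
      |∑ i ∈ W', χ i - (1 / 2) * W'.card| ≤ (1 / 32) * W'.card + P.m := by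
  obtain ⟨g, hg1, hg2, hg3, hg4⟩ := tilt_step P G lam lv hlv hlam v l W' (fun i _ => hv i)
    (sub_quad P lam lv v hv l S age I W W' hW hW') c hc
  have heps := eps_le P G lam lv hlv l
  set x : ι → ℝ := fun i => 1 / 2 + ∑ j, v i j * g j with hx
  have hxe : ∀ i ∈ W', |x i - 1 / 2| ≤ 2 * P.b0 * sl lam lv l := by
    intro i hi
    have : x i - 1 / 2 = ∑ j, v i j * g j := by rw [hx]; ring
    rw [this]; exact hg2 i hi
  have hx01 : ∀ i ∈ W', 0 ≤ x i ∧ x i ≤ 1 := by
    intro i hi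
    have := abs_le.1 (hxe i hi)
    constructor <;> linarith [this.1, this.2]
  obtain ⟨z, hz1, hz2, hz3, hz4, hz5⟩ := vertex_data W' v x hx01
  set Fr := W'.filter (fun i => z i ≠ 0 ∧ z i ≠ 1) with hFr
  set Hn := W.filter (fun i => Hv (20 * P.m) v W i) with hHn
  set Hold := S.filter (fun i => 1 ≤ age i ∧ age i ≤ P.K) with hHold
  set F := Fr ∪ Hn ∪ Hold with hF
  have hWmem : ∀ i, i ∈ W ↔ i ∈ S ∧ age i = 0 := fun i => by rw [hW, Finset.mem_filter]
  have hW'mem : ∀ i, i ∈ W' ↔ i ∈ W ∧ ¬ Hv (20 * P.m) v W i := fun i => by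
    rw [hW', Finset.mem_filter]
  have hT0mem : ∀ i, i ∈ T0 ↔ i ∈ S ∧ age i ≤ P.K := fun i => by rw [hT0, Finset.mem_filter]
  have hFrmem : ∀ i, i ∈ Fr ↔ i ∈ W' ∧ (z i ≠ 0 ∧ z i ≠ 1) := fun i => by
    rw [hFr, Finset.mem_filter]
  have hHnmem : ∀ i, i ∈ Hn ↔ i ∈ W ∧ Hv (20 * P.m) v W i := fun i => by
    rw [hHn, Finset.mem_filter]
  have hHoldmem : ∀ i, i ∈ Hold ↔ i ∈ S ∧ (1 ≤ age i ∧ age i ≤ P.K) := fun i => by
    rw [hHold, Finset.mem_filter]
  have hFmem : ∀ i, i ∈ F ↔ (i ∈ Fr ∨ i ∈ Hn) ∨ i ∈ Hold := fun i => by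
    rw [hF, Finset.mem_union, Finset.mem_union]
  have hWT : ∀ i ∈ W', i ∈ T0 := by
    intro i hi
    have h1 := ((hWmem i).1 ((hW'mem i).1 hi).1)
    exact (hT0mem i).2 ⟨h1.1, by omega⟩
  have hFT : F ⊆ T0 := by
    intro i hi
    rcases (hFmem i).1 hi with (h | h) | h
    · exact hWT i ((hFrmem i).1 h).1
    · have h1 := ((hWmem i).1 ((hHnmem i).1 h).1)
      exact (hT0mem i).2 ⟨h1.1, by omega⟩
    · have h1 := (hHoldmem i).1 h
      exact (hT0mem i).2 ⟨h1.1, h1.2.2⟩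
  have hTF : ∀ i ∈ T0, i ∉ W' → i ∈ F := by
    intro i hi hiW
    have h1 := (hT0mem i).1 hi
    rw [hFmem]
    by_cases h0 : age i = 0
    · have h2 : i ∈ W := (hWmem i).2 ⟨h1.1, h0⟩
      by_cases h3 : Hv (20 * P.m) v W i
      · left; right; exact (hHnmem i).2 ⟨h2, h3⟩
      · exact absurd ((hW'mem i).2 ⟨h2, h3⟩) hiW
    · right; exact (hHoldmem i).2 ⟨h1.1, by omega, h1.2⟩
  have hWF : ∀ i ∈ W', i ∈ F → i ∈ Fr := by
    intro i hi hiF
    rcases (hFmem i).1 hiF with (h | h) | h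
    · exact h
    · exact absurd ((hHnmem i).1 h).2 ((hW'mem i).1 hi).2
    · have h1 := ((hWmem i).1 ((hW'mem i).1 hi).1)
      have h2 := (hHoldmem i).1 h
      omega
  have hFcard : (F.card : ℝ) ≤ P.nF := by
    have h1 : (Fr.card : ℝ) ≤ P.m := by exact_mod_cast hz2
    have h2 : (Hn.card : ℝ) ≤ P.h := by exact_mod_cast hv_card P v W
    have h3 := old_card P v lam lv l S age I
    have h4 : (F.card : ℝ) ≤ Fr.card + Hn.card + Hold.card := by
      have := (Finset.card_union_le (Fr ∪ Hn) Hold).trans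
        (Nat.add_le_add_right (Finset.card_union_le Fr Hn) _)
      exact_mod_cast this
    unfold Par.nF
    linarith
  set X : ι → ℝ := fun i => if i ∈ W' then z i else 1 / 2 with hX
  have hX01 : ∀ i ∈ F, 0 ≤ X i ∧ X i ≤ 1 := by
    intro i _
    by_cases h : i ∈ W'
    · simp only [hX, if_pos h]; exact hz1 i h
    · simp only [hX, if_neg h]; norm_num
  obtain ⟨y, hy1, hy2, hy3⟩ := round_data P G F X hX01 v hv (nage P v W age) hFcard
  set χ : ι → ℝ := fun i => if i ∈ F then y i else z i with hχ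
  have hχF : ∀ i ∈ F, χ i = y i := fun i hi => by simp only [hχ, if_pos hi]
  have hχz : ∀ i ∈ W', i ∉ Fr → χ i = z i := by
    intro i hi hi2
    have : i ∉ F := fun h => hi2 (hWF i hi h)
    simp only [hχ, if_neg this]
  have hχ01 : ∀ i ∈ T0, χ i = 0 ∨ χ i = 1 := by
    intro i hi
    by_cases h : i ∈ F
    · rw [hχF i h]; exact hy1 i h
    · have h1 : i ∈ W' := by
        by_contra h2; exact h (hTF i hi h2)
      have h2 : i ∉ Fr := fun h3 => h ((hFmem i).2 (Or.inl (Or.inl h3)))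
      rw [hχz i h1 h2]
      by_contra hcon
      push Not at hcon
      exact h2 ((hFrmem i).2 ⟨h1, hcon⟩)
  have hFrsub : Fr ⊆ W' := Finset.filter_subset _ _
  have hhalf := fun (φ : ι → ℝ) (hφ : ∀ i ∈ W', 0 ≤ φ i)
      (he : ∑ i ∈ W', z i * φ i = ∑ i ∈ W', x i * φ i) =>
    half_data W' Fr hFrsub x z χ φ (2 * P.b0 * sl lam lv l) hφ hxe hz1
      (fun i hi => hχ01 i (hWT i (hFrsub hi))) hχz he
  refine ⟨Fr, χ, fun k => ∑ i ∈ W', (∑ j, v i j * g j) * v i k,
    fun k => ∑ i ∈ F, (y i - X i) * v i k, ?_, ?_, hg1, hg3, hg4, hy2, ?_, ?_⟩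
  · refine ⟨hW, hW', hT0, hFrsub, hz2, hχ01, ?_, ?_⟩
    · intro u
      exact hhalf _ (fun _ _ => sq_nonneg _) (hz4 u)
    · intro j hj1 hj2
      have e1 : T0.filter (fun i => nage P v W age i = j) =
          F.filter (fun i => nage P v W age i = j) := by
        ext i
        rw [Finset.mem_filter, Finset.mem_filter]
        constructor
        · rintro ⟨h1, h2⟩
          refine ⟨hTF i h1 ?_, h2⟩
          intro h3
          have h4 := (hW'mem i).1 h3
          have h5 := (hWmem i).1 h4.1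
          unfold nage at h2
          rw [if_pos h5.2, if_neg h4.2] at h2
          omega
        · rintro ⟨h1, h2⟩
          exact ⟨hFT h1, h2⟩
      have h := hy3 j hj1 hj2
      have e2 : ∑ i ∈ F.filter (fun i => nage P v W age i = j), (y i - X i) =
          ∑ i ∈ T0.filter (fun i => nage P v W age i = j), χ i
        - (1 / 2) * ((T0.filter (fun i => nage P v W age i = j)).card : ℝ) := by
        rw [e1, Finset.card_eq_sum_ones]
        push_cast
        rw [Finset.mul_sum, ← Finset.sum_sub_distrib]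
        refine Finset.sum_congr rfl fun i hi => ?_
        have h1 := Finset.mem_filter.1 hi
        rw [hχF i h1.1]
        have h3 : i ∉ W' := by
          intro h3
          have h4 := (hW'mem i).1 h3
          have h5 := (hWmem i).1 h4.1
          have h2 := h1.2
          unfold nage at h2
          rw [if_pos h5.2, if_neg h4.2] at h2
          omega
        simp only [hX, if_neg h3]; ring
      rw [← e2]; exact h
  · intro k
    have hWsub : W' ⊆ T0 := hWT
    have e1 : ∑ i ∈ T0, χ i * v i k = ∑ i ∈ T0, X i * v i k + ∑ i ∈ F, (y i - X i) * v i k := by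
      have h0 : ∑ i ∈ F, (y i - X i) * v i k = ∑ i ∈ T0, (χ i - X i) * v i k := by
        have h00 : ∑ i ∈ F, (y i - X i) * v i k = ∑ i ∈ F, (χ i - X i) * v i k :=
          Finset.sum_congr rfl fun i hi => by rw [hχF i hi]
        rw [h00]
        apply Finset.sum_subset hFT
        intro i hi hi2
        have h1 : i ∈ W' := by
          by_contra h2; exact hi2 (hTF i hi h2)
        have h2 : i ∉ Fr := fun h3 => hi2 ((hFmem i).2 (Or.inl (Or.inl h3)))
        rw [hχz i h1 h2]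
        simp only [hX, if_pos h1]; ring
      rw [h0, ← Finset.sum_add_distrib]
      exact Finset.sum_congr rfl fun i _ => by ring
    have e2 : ∑ i ∈ T0, X i * v i k = (1 / 2) * ∑ i ∈ T0, v i k +
        ∑ i ∈ W', (∑ j, v i j * g j) * v i k := by
      have h0 : ∑ i ∈ W', (X i - 1 / 2) * v i k = ∑ i ∈ T0, (X i - 1 / 2) * v i k := by
        apply Finset.sum_subset hWsub
        intro i hi hi2
        simp only [hX, if_neg hi2]; ring
      have h1 : ∑ i ∈ W', (X i - 1 / 2) * v i k = ∑ i ∈ W', z i * v i k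
          - (1 / 2) * ∑ i ∈ W', v i k := by
        rw [Finset.mul_sum, ← Finset.sum_sub_distrib]
        refine Finset.sum_congr rfl fun i hi => ?_
        simp only [hX, if_pos hi]; ring
      have h2 : ∑ i ∈ W', x i * v i k = (1 / 2) * ∑ i ∈ W', v i k +
          ∑ i ∈ W', (∑ j, v i j * g j) * v i k := by
        rw [Finset.mul_sum, ← Finset.sum_add_distrib]
        refine Finset.sum_congr rfl fun i hi => ?_
        simp only [hx]; ring
      have h3 : ∑ i ∈ T0, X i * v i k = ∑ i ∈ T0, (X i - 1 / 2) * v i k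
          + (1 / 2) * ∑ i ∈ T0, v i k := by
        rw [Finset.mul_sum, ← Finset.sum_add_distrib]
        exact Finset.sum_congr rfl fun i _ => by ring
      rw [h3, ← h0, h1, hz3 k, h2]; ring
    rw [e1, e2]
  · intro k s hs hvs
    calc |∑ i ∈ F, (y i - X i) * v i k| ≤ ∑ i ∈ F, |(y i - X i) * v i k| :=
          Finset.abs_sum_le_sum_abs _ _
      _ ≤ ∑ i ∈ F, s := by
          refine Finset.sum_le_sum fun i hi => ?_
          rw [abs_mul]
          have h1 : |y i - X i| ≤ 1 := by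
            have := hX01 i hi
            rw [abs_le]
            rcases hy1 i hi with h | h <;> rw [h] <;> constructor <;> linarith
          have h2 : |v i k| ≤ s := hvs i ((hT0mem i).1 (hFT hi)).1
          calc |y i - X i| * |v i k| ≤ 1 * s := mul_le_mul h1 h2 (abs_nonneg _) zero_le_one
            _ = s := one_mul s
      _ = (F.card : ℝ) * s := by rw [Finset.sum_const, nsmul_eq_mul]
      _ ≤ P.nF * s := mul_le_mul_of_nonneg_right hFcard hs
  · have h := hhalf (fun _ => 1) (fun _ _ => zero_le_one) (by simpa using hz5)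
    simp only [mul_one, Finset.sum_const, nsmul_eq_mul] at h
    have h1 : (Fr.card : ℝ) ≤ P.m := by exact_mod_cast hz2
    have h2 : 2 * P.b0 * sl lam lv l * (W'.card : ℝ) ≤ 1 / 32 * (W'.card : ℝ) :=
      mul_le_mul_of_nonneg_right heps (Nat.cast_nonneg _)
    refine h.trans ?_
    linarith

end P262
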