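import Vale.Agent.P262.StepF

/-! P262: one step of the recursion. -/

set_option linter.unusedSectionVars false

namespace P262

open Finset
open scoped Classical

variable {d : ℕ} {ι : Type}

/-- termination measure -/
def mu (P : Par d) (S : Finset ι) (age : ι → ℕ) : ℕ := ∑ i ∈ S, wt P (age i)

lemma wt_pos (P : Par d) (a : ℕ) (ha : a ≤ P.K + 1) : 0 < wt P a := by
  unfold wt; split_ifs <;> omega

lemma wt_nage_le (P : Par d) (v : ι → Fin d → ℝ) (W : Finset ι) (age : ι → ℕ) (i : ι)
    (hi : age i ≤ P.K) : wt P (nage P v W age i) ≤ wt P (age i) := by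
  unfold wt nage
  by_cases h0 : age i = 0
  · by_cases h1 : Hv (20 * P.m) v W i
    · rw [if_pos h0, if_pos h1, if_pos h0, if_neg (by norm_num)]
      omega
    · rw [if_pos h0, if_neg h1, if_pos h0, if_pos rfl]
  · rw [if_neg h0, if_neg h0, if_neg (by omega)]
    omega

lemma wt_nage_lt (P : Par d) (v : ι → Fin d → ℝ) (W : Finset ι) (age : ι → ℕ) (i : ι)
    (hi : age i ≤ P.K) (h : ¬ (age i = 0 ∧ ¬ Hv (20 * P.m) v W i)) :
    wt P (nage P v W age i) < wt P (age i) := by
  unfold wt nage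
  by_cases h0 : age i = 0
  · have h1 : Hv (20 * P.m) v W i := by
      by_contra h2; exact h ⟨h0, h2⟩
    rw [if_pos h0, if_pos h1, if_pos h0, if_neg (by norm_num)]
    omega
  · rw [if_neg h0, if_neg h0, if_neg (by omega)]
    omega

lemma mu_lt (P : Par d) (lam : Fin d → ℝ) (lv : Fin d → ℕ)
    (v : ι → Fin d → ℝ) (l : ℕ) (S : Finset ι) (age : ι → ℕ)
    (W W' Fr T0 : Finset ι) (χ : ι → ℝ) (D : SideD P lam lv v l S age W W' Fr T0 χ)
    (hS : S.Nonempty) (hage : ∀ i ∈ S, age i ≤ P.K + 1)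
    (hcount : |∑ i ∈ W', χ i - (1 / 2) * W'.card| ≤ (1 / 32) * W'.card + P.m) :
    mu P (T0.filter (fun i => χ i = 1)) (nage P v W age) < mu P S age := by
  have hsubT : T0.filter (fun i => χ i = 1) ⊆ T0 := Finset.filter_subset _ _
  have hT0S : T0 ⊆ S := by rw [D.hT0]; exact Finset.filter_subset _ _
  have hTK : ∀ i ∈ T0, age i ≤ P.K := by
    intro i hi
    rw [D.hT0, Finset.mem_filter] at hi; exact hi.2
  have h1 : mu P (T0.filter (fun i => χ i = 1)) (nage P v W age) ≤
      mu P (T0.filter (fun i => χ i = 1)) age :=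
    Finset.sum_le_sum fun i hi => wt_nage_le P v W age i (hTK i (hsubT hi))
  by_cases hex : ∃ i ∈ S, i ∉ T0.filter (fun i => χ i = 1)
  · obtain ⟨i, hi, hi2⟩ := hex
    have h2 : mu P (T0.filter (fun i => χ i = 1)) age < mu P S age := by
      unfold mu
      exact Finset.sum_lt_sum_of_subset (hsubT.trans hT0S) hi hi2 (wt_pos P _ (hage i hi))
        (fun _ _ _ => Nat.zero_le _)
    exact lt_of_le_of_lt h1 h2
  · push Not at hex
    have hSe : T0.filter (fun i => χ i = 1) = S :=
      Finset.Subset.antisymm (hsubT.trans hT0S) hex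
    by_cases hex2 : ∃ i ∈ S, ¬ (age i = 0 ∧ ¬ Hv (20 * P.m) v W i)
    · obtain ⟨i, hi, hi2⟩ := hex2
      rw [hSe]
      unfold mu
      refine Finset.sum_lt_sum (fun j hj => ?_) ⟨i, hi, ?_⟩
      · exact wt_nage_le P v W age j (hTK j (hsubT (hex j hj)))
      · exact wt_nage_lt P v W age i (hTK i (hsubT (hex i hi))) hi2
    · exfalso
      push Not at hex2
      have hW'S : W' = S := by
        rw [D.hW']
        ext i
        rw [Finset.mem_filter, D.hW, Finset.mem_filter]
        constructor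
        · rintro ⟨h, _⟩; exact h.1
        · intro h
          have h2 := hex2 i h
          refine ⟨⟨h, h2.1⟩, ?_⟩
          rw [← D.hW]; exact h2.2
      have hWS : W = S := by
        rw [D.hW]
        ext i
        rw [Finset.mem_filter]
        constructor
        · rintro ⟨h, _⟩; exact h
        · intro h; exact ⟨h, (hex2 i h).1⟩
      have hχ1 : ∀ i ∈ W', χ i = 1 := by
        intro i hi
        rw [hW'S] at hi
        exact (Finset.mem_filter.1 (hex i hi)).2
      have hsum : ∑ i ∈ W', χ i = W'.card := by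
        rw [Finset.sum_congr rfl hχ1]; simp
      obtain ⟨i0, hi0⟩ := hS
      have h3 := (hex2 i0 hi0).2
      unfold Hv at h3
      push Not at h3
      have h4 := h3.2
      rw [hWS, ← hW'S] at h4
      have hm1 : (1:ℝ) ≤ P.m := by
        have : 0 < P.m := by unfold Par.m; positivity
        exact_mod_cast this
      have h5 : (20:ℝ) * P.m ≤ W'.card := by exact_mod_cast h4
      rw [hsum] at hcount
      have h6 := (abs_le.1 hcount).2
      linarith

lemma run_bound (R R' : Finset ι) (hR : R' ⊆ R) (f : ι → ℝ) (s C : ℝ) (hs : 0 ≤ s)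
    (hf : ∀ i ∈ R, |f i| ≤ s) (hC : (R.card : ℝ) ≤ C) :
    |∑ i ∈ R', f i - (1 / 2) * ∑ i ∈ R, f i| ≤ (1 / 2) * C * s := by
  have h0 : ∑ i ∈ R', f i = ∑ i ∈ R, (if i ∈ R' then (1:ℝ) else 0) * f i := by
    rw [← Finset.sum_subset hR (f := fun i => (if i ∈ R' then (1:ℝ) else 0) * f i)]
    · exact Finset.sum_congr rfl fun i hi => by simp [hi]
    · intro i _ hi; simp [hi]
  rw [h0, Finset.mul_sum, ← Finset.sum_sub_distrib]
  calc _ ≤ ∑ i ∈ R, |(if i ∈ R' then (1:ℝ) else 0) * f i - 1 / 2 * f i| :=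
        Finset.abs_sum_le_sum_abs _ _
    _ ≤ ∑ i ∈ R, (1 / 2) * s := by
        refine Finset.sum_le_sum fun i hi => ?_
        rw [← sub_mul, abs_mul]
        apply mul_le_mul _ (hf i hi) (abs_nonneg _) (by norm_num)
        split_ifs <;> norm_num
    _ = (R.card : ℝ) * ((1 / 2) * s) := by rw [Finset.sum_const, nsmul_eq_mul]
    _ ≤ C * ((1 / 2) * s) := mul_le_mul_of_nonneg_right hC (by positivity)
    _ = _ := by ring

/-- increment of a short coordinate -/
lemma incr_late (P : Par d) (G : P.Good) (j : ℕ) (hj : P.J ≤ j) (T E ρ : ℝ) (s : ℝ) (hs : 0 ≤ s)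
    (hs2 : s ^ 2 = 2 * P.Lam * (3 / 5 : ℝ) ^ (j - (P.K + 1)))
    (hT : |T| ≤ s) (hE : |E| ≤ P.nF * s) (hρ : |ρ| ≤ (1 / 2) * (1 / 2 + 2 * P.b1) * s) :
    |T| + |E| + |ρ| ≤ (4 / 5 : ℝ) ^ (j - P.J) := by
  have hb1 := P.b1_ge
  have h1 : |T| + |E| + |ρ| ≤ (P.b0 + P.nF + 1) * s := by
    have : (1 / 2) * (1 / 2 + 2 * P.b1) * s ≤ P.b0 * s := by
      apply mul_le_mul_of_nonneg_right _ hs
      unfold Par.b0; linarith
    nlinarith
  refine h1.trans ?_
  have hnF : 0 ≤ P.nF := by unfold Par.nF; positivity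
  have hb0 := P.b0_ge
  have hpos : 0 ≤ (P.b0 + P.nF + 1) * s := by positivity
  apply le_of_sq_le_sq _ (by positivity)
  have e : j - (P.K + 1) = P.J' + (j - P.J) := by unfold Par.J at hj ⊢; omega
  rw [mul_pow, hs2, e, pow_add]
  have h2 := G.hJ
  have h3 : (P.b0 + P.nF + 1) ^ 2 * (2 * P.Lam * ((3 / 5 : ℝ) ^ P.J' * (3 / 5 : ℝ) ^ (j - P.J))) =
      ((P.b0 + P.nF + 1) ^ 2 * (2 * P.Lam) * (3 / 5 : ℝ) ^ P.J') * (3 / 5 : ℝ) ^ (j - P.J) := by ring
  rw [h3]
  calc _ ≤ 1 * (3 / 5 : ℝ) ^ (j - P.J) := mul_le_mul_of_nonneg_right h2 (by positivity)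
    _ = (3 / 5 : ℝ) ^ (j - P.J) := one_mul _
    _ ≤ ((4 / 5 : ℝ) ^ 2) ^ (j - P.J) := pow_le_pow_left₀ (by norm_num) (by norm_num) _
    _ = ((4 / 5 : ℝ) ^ (j - P.J)) ^ 2 := by rw [← pow_mul, ← pow_mul, mul_comm]

theorem step (P : Par d) (G : P.Good) (lam : Fin d → ℝ) (lv : Fin d → ℕ)
    (hlv : ∀ l k, l < lv k ↔ P.Lam ≤ lam k / 2 ^ l) (hlam : ∀ k, 0 ≤ lam k)
    (v : ι → Fin d → ℝ) (hv : ∀ i, ∑ k, (v i k) ^ 2 ≤ 1) (l : ℕ) (S : Finset ι) (age : ι → ℕ)
    (I : InvS P v lam lv l S age) (hS : S.Nonempty) (a b : Fin d → ℝ)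
    (hab : ∀ k, b k = a k + ∑ i ∈ S, v i k)
    (ha : ∀ k, |a k| ≤ P.bet (l - lv k)) (hb : ∀ k, |b k| ≤ P.bet (l - lv k)) :
    ∃ (SL SR : Finset ι) (ag : ι → ℕ),
      Disjoint SL SR ∧ SL ∪ SR = S.filter (fun i => age i ≤ P.K) ∧
      InvS P v lam lv (l + 1) SL ag ∧ InvS P v lam lv (l + 1) SR ag ∧
      (∀ R' ⊆ S.filter (fun i => age i = P.K + 1), ∀ k,
        |a k + ∑ i ∈ SL, v i k + ∑ i ∈ R', v i k| ≤ P.bet (l + 1 - lv k)) ∧
      mu P SL ag < mu P S age ∧ mu P SR ag < mu P S age := by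
  set W := S.filter (fun i => age i = 0) with hW
  set W' := W.filter (fun i => ¬ Hv (20 * P.m) v W i) with hW'
  set T0 := S.filter (fun i => age i ≤ P.K) with hT0
  set R := S.filter (fun i => age i = P.K + 1) with hR
  have hb1 := P.b1_ge
  obtain ⟨Fr, χ, T, E, D, hid, hTl, hTs, hTs2, hE, hEs, hcount⟩ :=
    exists_chi P G lam lv hlv hlam v hv l S age I W W' T0 hW hW' hT0
      (fun k => -(1 / 2) * (a k + b k)) (by
        intro k hk
        have h1 := ha k
        have h2 := hb k
        have h3 : l - lv k = 0 := by omega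
        rw [h3] at h1 h2
        simp only [Par.bet] at h1 h2
        rw [abs_mul, abs_neg, abs_of_pos (by norm_num : (0:ℝ) < 1 / 2)]
        have := abs_add_le (a k) (b k)
        linarith)
  have D' := D.compl
  have hcount' : |∑ i ∈ W', (1 - χ i) - (1 / 2) * W'.card| ≤ (1 / 32) * W'.card + P.m := by
    have e : ∑ i ∈ W', (1 - χ i) - (1 / 2) * (W'.card : ℝ) =
        -(∑ i ∈ W', χ i - (1 / 2) * (W'.card : ℝ)) := by
      rw [Finset.sum_sub_distrib, Finset.sum_const, nsmul_eq_mul]; ring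
    rw [e, abs_neg]; exact hcount
  refine ⟨T0.filter (fun i => χ i = 1), T0.filter (fun i => 1 - χ i = 1), nage P v W age,
    ?_, ?_, side P lam lv v l S age W W' Fr T0 χ D G hlv hlam hv I,
    side P lam lv v l S age W W' Fr T0 _ D' G hlv hlam hv I, ?_,
    mu_lt P lam lv v l S age W W' Fr T0 χ D hS I.age_le hcount,
    mu_lt P lam lv v l S age W W' Fr T0 _ D' hS I.age_le hcount'⟩
  · rw [Finset.disjoint_left]
    intro i h1 h2
    have h3 := (Finset.mem_filter.1 h1).2
    have h4 := (Finset.mem_filter.1 h2).2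
    rw [h3] at h4
    norm_num at h4
  · ext i
    rw [Finset.mem_union]
    constructor
    · rintro (h | h) <;> exact (Finset.mem_filter.1 h).1
    · intro h
      rcases D.hχ i h with h1 | h1
      · right; exact Finset.mem_filter.2 ⟨h, by rw [h1]; norm_num⟩
      · left; exact Finset.mem_filter.2 ⟨h, h1⟩
  · intro R' hR' k
    have hsum : ∑ i ∈ S, v i k = ∑ i ∈ T0, v i k + ∑ i ∈ R, v i k := by
      rw [hT0, hR]
      rw [← Finset.sum_filter_add_sum_filter_not S (fun i => age i ≤ P.K)]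
      congr 1
      apply Finset.sum_congr _ (fun _ _ => rfl)
      apply Finset.filter_congr
      intro i hi
      have := I.age_le i hi
      constructor <;> intro h <;> omega
    have hSL : ∑ i ∈ T0.filter (fun i => χ i = 1), v i k = ∑ i ∈ T0, χ i * v i k :=
      sum_filter_one T0 χ D.hχ (fun i => v i k)
    have hval : a k + ∑ i ∈ T0.filter (fun i => χ i = 1), v i k + ∑ i ∈ R', v i k =
        (1 / 2) * (a k + b k) + T k + E k + (∑ i ∈ R', v i k - (1 / 2) * ∑ i ∈ R, v i k) := by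
      rw [hSL, hid k, hab k, hsum]; ring
    rw [hval]
    have hRc : (R.card : ℝ) ≤ 1 / 2 + 2 * P.b1 := top_card P G v lam lv l S age I
    have hv1 : ∀ i, |v i k| ≤ 1 := by
      intro i
      have h1 : (v i k) ^ 2 ≤ 1 :=
        (Finset.single_le_sum (f := fun k => (v i k) ^ 2) (fun _ _ => sq_nonneg _)
          (Finset.mem_univ k)).trans (hv i)
      exact abs_le_one_iff_mul_self_le_one.2 (by nlinarith)
    have hρ1 := run_bound R R' hR' (fun i => v i k) 1 _ zero_le_one (fun i _ => hv1 i) hRc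
    set ρ := ∑ i ∈ R', v i k - (1 / 2) * ∑ i ∈ R, v i k with hρ
    rcases Nat.lt_or_ge l (lv k) with hlong | hshort
    · have e : l + 1 - lv k = 0 := by omega
      rw [e]
      simp only [Par.bet]
      have h1 := hTl k hlong
      have h2 : (1 / 2) * (a k + b k) + T k + E k + ρ = E k + ρ := by rw [h1]; ring
      rw [h2]
      have h3 := abs_add_le (E k) ρ
      have h4 := hE k
      unfold Par.b0
      linarith
    · have e : l + 1 - lv k = (l - lv k) + 1 := by omega
      rw [e]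
      simp only [Par.bet]
      have h1 : |(1 / 2) * (a k + b k)| ≤ P.bet (l - lv k) := by
        rw [abs_mul, abs_of_pos (by norm_num : (0:ℝ) < 1 / 2)]
        have := abs_add_le (a k) (b k)
        have h2 := ha k
        have h3 := hb k
        linarith
      have h2 : |(1 / 2) * (a k + b k) + T k + E k + ρ| ≤
          |(1 / 2) * (a k + b k)| + (|T k| + |E k| + |ρ|) := by
        have t1 := abs_add_le ((1 / 2) * (a k + b k) + T k + E k) ρ
        have t2 := abs_add_le ((1 / 2) * (a k + b k) + T k) (E k)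
        have t3 := abs_add_le ((1 / 2) * (a k + b k)) (T k)
        linarith
      refine h2.trans (add_le_add h1 ?_)
      split_ifs with hJ
      · have h3 := hTs k hshort
        have h4 := hE k
        unfold Par.b0
        linarith
      · push Not at hJ
        have hJK : P.K + 1 ≤ P.J := by unfold Par.J; omega
        have hkK : lv k + (P.K + 1) ≤ l := by omega
        set s := Real.sqrt (2 * P.Lam * (3 / 5 : ℝ) ^ (l - lv k - (P.K + 1))) with hs
        have hL := G.hL0
        have hs0 : 0 ≤ s := Real.sqrt_nonneg _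
        have hs2 : s ^ 2 = 2 * P.Lam * (3 / 5 : ℝ) ^ (l - lv k - (P.K + 1)) :=
          Real.sq_sqrt (by positivity)
        have hvs : ∀ i ∈ S, |v i k| ≤ s := by
          intro i hi
          have := item_small P G v lam lv l S age I k hkK i hi
          exact abs_le_of_sq_le_sq (by rw [hs2]; exact this) hs0
        have hTk : |T k| ≤ s := by
          apply abs_le_of_sq_le_sq _ hs0
          have h3 := hTs2 k hshort
          have h4 : ∑ i ∈ W', (v i k) ^ 2 ≤ ∑ i ∈ W, (v i k) ^ 2 :=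
            Finset.sum_le_sum_of_subset_of_nonneg (Finset.filter_subset _ _)
              (fun _ _ _ => sq_nonneg _)
          have h5 := I.short k hshort
          have h6 : 2 * P.Lam * (3 / 5 : ℝ) ^ (l - lv k) ≤
              2 * P.Lam * (3 / 5 : ℝ) ^ (l - lv k - (P.K + 1)) := by
            apply mul_le_mul_of_nonneg_left _ (by positivity)
            exact pow_le_pow_of_le_one (by norm_num) (by norm_num) (by omega)
          rw [hs2]
          exact h3.trans (h4.trans (h5.trans h6))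
        have hρs := run_bound R R' hR' (fun i => v i k) s _ hs0
          (fun i hi => hvs i (Finset.mem_filter.1 hi).1) hRc
        exact incr_late P G (l - lv k) hJ (T k) (E k) ρ s hs0 hs2 hTk (hEs k s hs0 hvs) hρs

end P262
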